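import Vale.Agent.P011N.Iface
import Vale.Agent.P011.D4Y.Defs

/-!
The statement on trialitarian groups which is used for the groups of type `E₆`.
-/

namespace Vale.Agent.P011N.E1

open Vale.Agent.P011N Vale.Agent.P011.D4Y

/-- The trialitarian groups of noncyclic cubic extensions have no proper big subgroup. -/
def TIB : Prop :=
  ∀ (k L : Type) [Field k] [NumberField k] [Field L] [NumberField L] [Algebra k L]
    (E : Type) [Field E] [NumberField E] [Algebra k E] [Algebra L E] [IsScalarTower k L E]
    (ρ σ ι : E ≃ₐ[k] E) (α : E) (a b c : kˣ) (q : Lˣ), HyI ρ σ ι α a b c q →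
    (∀ τ : k →+* ℝ, τ a < 0 → τ b < 0 ∧ τ c < 0) → BigTop (GTI ρ σ ι α a b c q)

end Vale.Agent.P011N.E1
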