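import Vale.Agent.P011N.E1.Defs

/-!
The class of subgroups which replaces the subgroups of finite index.
-/

namespace Vale.Agent.P011N.E1

open Vale.Agent.P011N

/-- The statements on smaller groups which are used. -/
def HypE : Prop := MFNF ∧ MFQ ∧ TIB

/-- A big subgroup, when the statements on smaller groups hold. -/
def Bg {G : Type} [Group G] (N : Subgroup G) : Prop := Big N ∧ HypE

theorem Bg.comap {G H : Type} [Group G] [Group H] {N : Subgroup G} (h : Bg N) (s : H →* G) :
    Bg (N.comap s) := ⟨h.1.comap s, h.2⟩

end Vale.Agent.P011N.E1
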