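import Vale.Agent.P011.H553.Rl.Model

/-!
Change of the coordinates of the octonion algebra: isomorphisms of the outer groups of type `E₆`.
-/

open NumberField IsDedekindDomain

namespace Vale.Agent.P011.H553.Rl

open Vale.Agent.P011.MPQ Vale.Agent.P011.Arith Vale.Agent.P011.D4 Vale.Agent.P011.D4.Oct
  Vale.Agent.P011.E6 Vale.Agent.P011.E6O
open Vale.Agent.P011.E6H (IsSextic)
open Vale.Agent.P011.E6W.H7 (exists_good_at exists_pure_sq exists_real_sextic)

section iso

variable {k E : Type} [Field k] [Field E] [Algebra k E] {ρ σ : E ≃ₐ[k] E} {lam : Eˣ}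
  {g : Fin 3 → Eˣ} {a b c : kˣ}

/-- The groups of linear maps and of permutations are isomorphic. -/
theorem iso_perm : Nonempty (GO ρ σ lam g a b c ≃*
    (E6H.GHer σ g a b c ⊓ E6H.GPh ρ lam a b c : Subgroup (Equiv.Perm (AlbL E a b c)))) := by
  rw [E6H.gpo_eq]
  refine ⟨MulEquiv.ofBijective toGPO ⟨fun φ ψ e => ?_, toGPO_surjective⟩⟩
  apply Subtype.ext
  apply LinearEquiv.ext
  intro x
  exact congrArg (fun f => f.1 x) e

end iso

section model

variable {k E : Type} [Field k] [NumberField k] [Field E] [NumberField E] [Algebra k E]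
  {ρ σ : E ≃ₐ[k] E} {lam : Eˣ} {g : Fin 3 → Eˣ} {kap a b c : kˣ}

/-- Change of the quaternion subalgebra. -/
theorem iso_model {a' b' c' : kˣ} {i j l : Oct a b c} (ht : Trip a' b' c' i j l) :
    Nonempty (GO ρ σ lam g a' b' c' ≃* GO ρ σ lam g a b c) := by
  obtain ⟨h1, h2, h3⟩ := trip_str (ρ := ρ) (σ := σ) (lam := lam) (γ := g) ht
  exact ⟨conjO (conj_mem_GO h1 h2 h3)⟩

/-- When the octonion algebra does not remain a division algebra over the sextic field, it has
coordinates which begin with `kap`. -/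
theorem exists_kap_iso (hS : IsSextic ρ σ kap) (hC : Division a b c)
    (hE : ¬ Division (up E a) (up E b) (up E c)) :
    ∃ b' c' : kˣ, Division kap b' c' ∧ ∀ (lam : Eˣ) (g : Fin 3 → Eˣ),
      Nonempty (GO ρ σ lam g kap b' c' ≃* GO ρ σ lam g a b c) := by
  obtain ⟨a', b', c', i, j, l, ht, -, h1, h2⟩ := exists_good_at hC
    (Set.finite_empty (α := HeightOneSpectrum (𝓞 k)))
  have hC' : Division a' b' c' := division_trip' ht hC
  have hd : ∀ φ : k →+* ℝ, Dfn φ a' b' c' → Dfn φ a b c := fun φ h => by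
    by_contra hn
    exact absurd h.1 (not_lt.2 (h2 φ hn).le)
  obtain ⟨i', hi, hi1, hi0, hin, -⟩ := exists_pure_sq a' b' c' kap
    (fun φ h => neg_of_not hS hE (hd φ h)) (fun φ h3 _ h5 => by
      have h6 : Dfn φ a b c := by
        by_contra hn
        exact absurd h3 (not_lt.2 (h2 φ hn).le)
      exact absurd (h1 φ h6).2.2 (not_lt.2 h5.le))
  have pure_of : ∀ w : Oct a' b' c', dot w 1 = 0 → star w = -w := by
    intro w hw
    apply star_neg_of_pure
    rw [bil_eq_dot, hw, mul_zero]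
  obtain ⟨j0, hj0, hj⟩ := exists_perp ![1, i', 1, 1, 1, 1, 1]
  obtain ⟨l0, hl0, hl⟩ := exists_perp ![1, i', j0, i' * j0, 1, 1, 1]
  have hj1 : dot j0 1 = 0 := hj 0
  have hji : dot j0 i' = 0 := hj 1
  have hl1 : dot l0 1 = 0 := hl 0
  have hli : dot l0 i' = 0 := hl 1
  have hlj : dot l0 j0 = 0 := hl 2
  have hlij : dot l0 (i' * j0) = 0 := hl 3
  obtain ⟨a1, b1, c1, ht'⟩ := exists_trip hC' hi hi0 (pure_of j0 hj1) hj0 (pure_of l0 hl1) hl0
    (by rw [dot_comm, hji]) (by rw [dot_comm, hli]) (by rw [dot_comm, hlj])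
    (by rw [dot_comm, hlij])
  have ha1 : a1 = kap := by
    apply Units.ext
    have h4 := ht'.ii
    rw [norm_eq_of_sq hi, hin, neg_neg] at h4
    exact (smul_one_inj h4).symm
  subst ha1
  refine ⟨b1, c1, division_trip' ht' hC', fun lam g => ?_⟩
  obtain ⟨e1⟩ := iso_model (ρ := ρ) (σ := σ) (lam := lam) (g := g) ht
  obtain ⟨e2⟩ := iso_model (ρ := ρ) (σ := σ) (lam := lam) (g := g) ht'
  exact ⟨e2.trans e1⟩

end model

end Vale.Agent.P011.H553.Rl
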