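import Vale.Agent.P011.H261.Rl.Top

/-!
A subgroup which is open at the archimedean places is the whole group.
-/

open NormedSpace Filter Topology NumberField

namespace Vale.Agent.P011.H261.Rl

open Vale.Agent.P011.MPQ Vale.Agent.P011.D4 Vale.Agent.P011.D4.Oct Vale.Agent.P011.E6
open Vale.Agent.P011.E6H
open scoped ComplexConjugate

section one

variable {k E : Type} [Field k] [Field E] [Algebra k E]
variable {ρ σ : E ≃ₐ[k] E} {lam : Eˣ} {g : Fin 3 → Eˣ} {a b c : kˣ}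

theorem lieOf_near {A : Type*} [NormedRing A] [NormedAlgebra ℝ A] [CompleteSpace A] {L L' : Set A}
    (h1 : (1 : A) ∈ L') (hm : ∀ x ∈ L', ∀ y ∈ L', x * y ∈ L') {δ : ℝ} (hδ : 0 < δ)
    (h : ∀ x ∈ L, dist x 1 < δ → x ∈ L') : ∀ X ∈ lieOf L, X ∈ lieOf L' := by
  intro X hX t
  have hc : Tendsto (fun n : ℕ => exp ((n : ℝ)⁻¹ • (t • X))) atTop (𝓝 1) := by
    have h1 : ContinuousAt (fun s : ℝ => exp (s • (t • X))) 0 :=
      (hasDerivAt_exp_smul_const (𝕂 := ℝ) (t • X) (0 : ℝ)).continuousAt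
    have h2 := h1.tendsto.comp tendsto_inv_atTop_nhds_zero_nat
    simpa [Function.comp_def] using h2
  obtain ⟨m, hm1, hm0⟩ := ((hc.eventually (Metric.ball_mem_nhds 1 hδ)).and
    (eventually_gt_atTop 0)).exists
  have h3 : exp ((m : ℝ)⁻¹ • (t • X)) ∈ L := by
    rw [smul_smul]
    exact hX _
  have h4 : ∀ n : ℕ, exp ((m : ℝ)⁻¹ • (t • X)) ^ n ∈ L' := by
    intro n
    induction n with
    | zero => rw [pow_zero]; exact h1
    | succ n ih => rw [pow_succ]; exact hm _ ih _ (h _ h3 hm1)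
  have h5 := h4 m
  rwa [exp_inv_smul_pow _ hm0] at h5

/-- The closure of an open subgroup has the Lie algebra of the closure of the group. -/
theorem lie_near {S : Type} [Fintype S] [DecidableEq S] (φ : S → E →+* ℂ)
    (N : Subgroup (G3 ρ σ lam g a b c)) {δ : ℝ} (hδ : 0 < δ)
    (hN : ∀ h : G3 ρ σ lam g a b c, (∀ v, ‖lc (φ v) h.1 - 1‖ < δ) → h ∈ N) :
    ∀ X ∈ lieOf (Lcl φ (⊤ : Subgroup (G3 ρ σ lam g a b c))), X ∈ lieOf (Lcl φ N) := by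
  refine lieOf_near (one_mem_Lcl φ N) (mul_mem_Lcl φ N) hδ fun x hx hd => ?_
  refine closure_mono ?_ (Metric.isOpen_ball.inter_closure ⟨hd, hx⟩)
  rintro y ⟨hy, n, -, hn⟩
  refine ⟨n, hN n fun v => ?_, hn⟩
  rw [← hn v, ← dist_eq_norm]
  exact lt_of_le_of_lt (dist_le_pi_dist y 1 v) hy

/-- The assembly. -/
theorem top_of_near {S : Type} [Fintype S] [DecidableEq S] (φ : S → E →+* ℂ)
    (hI : ∀ v, ∀ X ∈ Ll σ g (φ v) a b c, (Pi.single v X : ∀ v : S, RE (φ v) a b c) ∈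
      lieOf (Lcl φ (⊤ : Subgroup (G3 ρ σ lam g a b c))))
    (hII : ∀ v, Cn (Ll σ g (φ v) a b c) {x | ∃ f ∈ G3 ρ σ lam g a b c, x = lc (φ v) f})
    (N : Subgroup (G3 ρ σ lam g a b c)) {δ : ℝ} (hδ : 0 < δ)
    (hN : ∀ h : G3 ρ σ lam g a b c, (∀ v, ‖lc (φ v) h.1 - 1‖ < δ) → h ∈ N) : N = ⊤ := by
  rw [eq_top_iff]
  intro f _
  have h3 : (fun v => lc (φ v) f.1 : ∀ v : S, RE (φ v) a b c) ∈ Lcl φ N :=
    mem_of_factors (A := fun v => RE (φ v) a b c) isClosed_closure (one_mem_Lcl φ N)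
      (mul_mem_Lcl φ N) (fun v X hX => lie_near φ N hδ hN _ (hI v X hX)) (fun v => hII v)
      fun v => ⟨f.1, f.2, rfl⟩
  obtain ⟨B, hB, hfB⟩ : ∃ B : ℝ, 0 < B ∧ ∀ v, ‖lc (φ v) (f⁻¹).1‖ ≤ B := by
    refine ⟨1 + ∑ v, ‖lc (φ v) (f⁻¹).1‖, by positivity, fun v => ?_⟩
    have : ‖lc (φ v) (f⁻¹).1‖ ≤ ∑ v, ‖lc (φ v) (f⁻¹).1‖ :=
      Finset.single_le_sum (f := fun v => ‖lc (φ v) (f⁻¹).1‖)
        (fun v _ => norm_nonneg _) (Finset.mem_univ v)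
    linarith
  obtain ⟨y, ⟨n, hn, hy⟩, hd⟩ := Metric.mem_closure_iff.1 h3 (δ / B) (div_pos hδ hB)
  have h4 : ∀ v, ‖lc (φ v) (n * f⁻¹).1 - 1‖ < δ := by
    intro v
    have e1 : lc (φ v) (n * f⁻¹).1 - 1 =
        (lc (φ v) n.1 - lc (φ v) f.1) * lc (φ v) (f⁻¹).1 := by
      rw [lc_mul, sub_mul, ← lc_mul (φ v) f, mul_inv_cancel, lc_one]
    have e2 : ‖lc (φ v) n.1 - lc (φ v) f.1‖ < δ / B := by
      rw [← hy v, ← dist_eq_norm, dist_comm]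
      exact lt_of_le_of_lt (dist_le_pi_dist (fun v => lc (φ v) f.1) y v) hd
    rw [e1]
    calc ‖(lc (φ v) n.1 - lc (φ v) f.1) * lc (φ v) (f⁻¹).1‖
        ≤ ‖lc (φ v) n.1 - lc (φ v) f.1‖ * ‖lc (φ v) (f⁻¹).1‖ := norm_mul_le _ _
      _ ≤ ‖lc (φ v) n.1 - lc (φ v) f.1‖ * B :=
          mul_le_mul_of_nonneg_left (hfB v) (norm_nonneg _)
      _ < δ / B * B := mul_lt_mul_of_pos_right e2 hB
      _ = δ := div_mul_cancel₀ _ hB.ne'
  have h5 : n * f⁻¹ ∈ N := hN _ h4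
  have h6 := N.mul_mem (N.inv_mem h5) hn
  have e3 : (n * f⁻¹)⁻¹ * n = f := by group
  rwa [e3] at h6

end one

variable {k E : Type} [Field k] [NumberField k] [Field E] [NumberField E] [Algebra k E]
variable {ρ σ : E ≃ₐ[k] E} {lam : Eˣ} {g : Fin 3 → Eˣ} {a b c : kˣ}

/-- The assembly over the places of a set. -/
theorem top_on {S0 : (E →+* ℂ) → Prop} (hI : Front ρ σ lam g a b c) (hE : EmbNear ρ σ lam g a b c)
    (hII : ∀ φ, S0 φ → Conn ρ σ lam g a b c φ) (N : Subgroup (G3 ρ σ lam g a b c))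
    (hO : ∃ ε : ℝ, 0 < ε ∧ ∀ h : G3 ρ σ lam g a b c,
      (∀ w, S0 w → ∀ x, nm w (h.1 x - x) ≤ ε * nm w x) → h ∈ N) : N = ⊤ := by
  classical
  let S := {v : InfinitePlace k // ∃ w : E →+* ℂ, S0 w ∧
    InfinitePlace.mk (w.comp (algebraMap k E)) = v}
  have hex : ∀ v : S, ∃ w : E →+* ℂ, S0 w ∧ InfinitePlace.mk (w.comp (algebraMap k E)) = v.1 :=
    fun v => v.2
  choose φ h0 hφ using hex
  have hφ' : ∀ v : S, ∀ x, ‖φ v (algebraMap k E x)‖ = v.1 x := by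
    intro v x
    rw [← hφ v, InfinitePlace.apply]
    rfl
  obtain ⟨ε, hε, hnear⟩ := hO
  obtain ⟨δ, hδ, h1⟩ := hE φ ε hε
  refine top_of_near φ (fun v X hX => hI φ ?_ ⊤ (by rw [Subgroup.index_top]; exact one_ne_zero)
    v X hX) (fun v => hII _ (h0 v)) N hδ fun h hh => hnear h fun w hw x => h1 h hh w
      ⟨⟨InfinitePlace.mk (w.comp (algebraMap k E)), w, hw, rfl⟩, fun y => ?_⟩ x
  · intro v v' h
    refine Subtype.ext (InfinitePlace.ext _ _ fun x => ?_)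
    rw [← hφ', ← hφ']
    exact h x
  · rw [hφ', InfinitePlace.apply]
    rfl

end Vale.Agent.P011.H261.Rl
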