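import Vale.Agent.P011N.E1.Bg
import Vale.Agent.P011.E6W.H684.PDefs

/-!
The statement on big subgroups over the quadratic extension.
-/

open Vale.Agent.P011N.E1 (Bg)

section part0

open NumberField Matrix Polynomial

namespace Vale.Agent.P011.E6W.H684

open Vale.Agent.P011.MPQ hiding mat
open Vale.Agent.P011.D4 Vale.Agent.P011.D4.Oct Vale.Agent.P011.E6
open Vale.Agent.P011.E6I (MQ toMQ Mp S0 S1 S2 FixK InVs)
open Vale.Agent.P011.E6O (InD GO)
open Vale.Agent.P011.E6W.H183 (adjM)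
open Vale.Agent.P011.E6W.H196 (dsc3)
open scoped ComplexConjugate

/-- **(P1'), the statement over the quadratic extension `K`.** The element is `φ = A + th w B`,
the second component is the element `ε σ(κ₁)* κ₁`. -/
def KTopB (k K : Type) [Field k] [NumberField k] [Field K] [NumberField K] [Algebra k K] : Prop :=
  ∀ (s : K ≃ₐ[k] K) (th : K) (kap : k) (a b c u : kˣ) (w : Qt a b) (p0 p1 p2 : k)
    (A B : Matrix (Fin 3) (Fin 3) k) (ε : k) (κ₁ : Qt (up K a) (up K b)) (m : (MQ K a b)ˣ),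
    Module.finrank k K = 2 → th * th = algebraMap k K kap → s th = -th →
    Irreducible (X ^ 3 + C p2 * X ^ 2 + C p1 * X + C p0 : k[X]) →
    ¬ IsSquare (dsc3 p0 p1 p2) → ¬ IsSquare (dsc3 p0 p1 p2 * kap) →
    ¬ IsSquare (u : k) → ¬ IsSquare (u * kap) → ¬ IsSquare (u * dsc3 p0 p1 p2) →
    ¬ IsSquare (u * kap * dsc3 p0 p1 p2) →
    w.re = 0 → w * w = (u : k) • (1 : Qt a b) →
    Division a b c → (∀ τ : k →+* ℝ, τ u < 0 ↔ τ a < 0 ∧ τ b < 0) →
    (∀ τ : k →+* ℝ, τ a < 0 → τ b < 0 → τ c < 0) →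
    (∃ τ : k →+* ℝ, τ u < 0 ∧ 0 < τ kap) →
    Mp p0 p1 p2 * A = A * Mp p0 p1 p2 → Mp p0 p1 p2 * B = B * Mp p0 p1 p2 →
    (∀ i j, (m : MQ K a b) i j = algebraMap K (Qt (up K a) (up K b)) (algebraMap k K (A i j)) +
      (th * algebraMap k K (B i j)) • qup K w) →
    ε ≠ 0 → nrd κ₁ ≠ 0 →
    algebraMap k K (A * A - (kap * u) • (B * B)).det =
      algebraMap k K (ε ^ 2) * (nrd κ₁ * s (nrd κ₁)) →
    (∀ τ : k →+* ℝ, τ kap < 0 → τ u < 0 →
      0 < τ (ε * (A.det + kap * u * (A * B.adjugate).trace))) →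
    ∀ N : Subgroup (GKJ s p0 p1 p2 c m (algebraMap k K ε • (star (qmap s κ₁) * κ₁))),
      Bg N → N = ⊤

variable {k E : Type} [Field k] [Field E] [Algebra k E]

end Vale.Agent.P011.E6W.H684

end part0
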