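import Vale.Agent.P011N.E1.W1
import Vale.Agent.P011N.E1.PD
import Vale.Agent.P011.E6W.H541.Near
import Vale.Agent.P011.E6W.H684.P1j
import Vale.Agent.P011.E6W.H7.Fin0

/-!
Big subgroups and the stabilizers of frames.
-/

open Vale.Agent.P011N.E1 (Bg)

section part0

open Matrix Polynomial

set_option linter.unusedSectionVars false

namespace Vale.Agent.P011.E6W.H684

open Vale.Agent.P011.MPQ hiding mat
open Vale.Agent.P011.D4 Vale.Agent.P011.D4.Oct Vale.Agent.P011.E6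
open Vale.Agent.P011.E6.Alb
open Vale.Agent.P011.E6I (MQ toMQ toMQ_apply Mp S0 S1 S2 FixK S0_transpose S1_transpose
  S2_transpose cj amap_cj cj_inv InVs)
open Vale.Agent.P011.E6I.Fx (FixL MpL det_S0 mul_S0 eq_of_comm vP vP_comm det_vP P_mul_vP comm_vP
  extA extA_aup extA_mem extA_eq extA_mul conjP conjP_apply conjP_cj)
open Vale.Agent.P011.E6O (KK mkK KK_fix KK_ext InD InD0 um her GO ResB)
open Vale.Agent.P011.E6W.H183 (adjM Rel WH rhoK unK exists_kW Cub ez)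
open Vale.Agent.P011.E6W.H196 (dsc3)
open Vale.Agent.P011.E6W.H7 (smU cj_eq_act)

section sd

variable {k E : Type} [Field k] [NumberField k] [Field E] [NumberField E] [Algebra k E]
  {ρ σ : E ≃ₐ[k] E} {lam : Eˣ} {g : Fin 3 → Eˣ} {th s : E} {kap a b c : kˣ}
  {W : WH ρ σ lam g th s kap a b c} {w : Qt a b} {u : kˣ} {p0 p1 p2 : k}
  {z w' : MQ E a b} {m : (MQ E a b)ˣ} {z1 P : Matrix (Fin 3) (Fin 3) E}

variable {H : FD W w u p0 p1 p2 z w' m z1 P} {r : Matrix (Fin 3) (Fin 3) E}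
  {A B : Matrix (Fin 3) (Fin 3) k} {φ : (MQ (KK ρ) a b)ˣ} {κ : Qt (up (KK ρ) a) (up (KK ρ) b)}
  {ε : k} {Ψ : AlbL E a b c ≃ₗ[E] AlbL E a b c} (S : SDt H r A B φ κ ε Ψ)

/-- **The stabilizer of the frame is in the finite residual, if the group over the quadratic
extension has no subgroup of finite index.** -/
theorem SDt.mem_ResB (S : SDt H r A B φ κ ε Ψ)
    (hK : ∀ N : Subgroup (GKJ (sK W.rel.σ2 W.rel.comm) p0 p1 p2 c
      (H64.umap (sK W.rel.σ2 W.rel.comm) φ) (algebraMap k (KK ρ) ε •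
        (star (qmap (sK W.rel.σ2 W.rel.comm) (kapS W κ)) * kapS W κ))), Bg N → N = ⊤)
    {h : AlbL E a b c ≃ₗ[E] AlbL E a b c} (hh : h ∈ GO ρ σ lam g a b c)
    (hfix : ∀ T : Matrix (Fin 3) (Fin 3) E, Tᵀ = T → z1 * T = T * z1ᵀ →
      h (Alb.act m⁻¹ (qK ρ κ) (ofF T)) = Alb.act m⁻¹ (qK ρ κ) (ofF T)) :
    h ∈ ResB ρ σ lam g a b c := by
  obtain ⟨f, hf⟩ := S.exists_hom hh hfix
  refine ⟨S.hom f, ?_, hf⟩
  rw [SetLike.mem_coe, Subgroup.mem_sInf]
  intro N hN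
  have h1 : Bg (N.comap S.hom) := Bg.comap hN S.hom
  have h2 : f ∈ N.comap S.hom := by
    rw [hK _ h1]
    exact Subgroup.mem_top f
  exact h2

end sd

end Vale.Agent.P011.E6W.H684

end part0

section part1

open Matrix Polynomial

set_option linter.unusedSectionVars false

namespace Vale.Agent.P011.E6W.H684

open Vale.Agent.P011.MPQ hiding mat
open Vale.Agent.P011.D4 Vale.Agent.P011.D4.Oct Vale.Agent.P011.E6
open Vale.Agent.P011.E6.Alb
open Vale.Agent.P011.E6I (MQ toMQ toMQ_apply Mp S0 S1 S2 FixK S0_transpose S1_transpose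
  S2_transpose cj amap_cj cj_inv InVs)
open Vale.Agent.P011.E6I.Fx (FixL MpL det_S0 mul_S0 eq_of_comm vP vP_comm det_vP P_mul_vP comm_vP
  extA extA_aup extA_mem conjP)
open Vale.Agent.P011.E6O (KK mkK KK_fix KK_ext InD InD0 um her GO ResB)
open Vale.Agent.P011.E6W.H183 (adjM Rel WH rhoK unK exists_kW Cub ez)
open Vale.Agent.P011.E6W.H196 (dsc3)
open Vale.Agent.P011.E6W.H7 (smU cj_eq_act)
open scoped ComplexConjugate

section aux

end aux

section sgn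

variable {k E : Type} [Field k] [NumberField k] [Field E] [NumberField E] [Algebra k E]
  {ρ σ : E ≃ₐ[k] E} {lam : Eˣ} {g : Fin 3 → Eˣ} {th s : E} {kap a b c : kˣ}
  {W : WH ρ σ lam g th s kap a b c} {w : Qt a b} {u : kˣ} {p0 p1 p2 : k}
  {z w' : MQ E a b} {m : (MQ E a b)ˣ} {z1 P : Matrix (Fin 3) (Fin 3) E}
  {H : FD W w u p0 p1 p2 z w' m z1 P} {r : Matrix (Fin 3) (Fin 3) E}
  {A B : Matrix (Fin 3) (Fin 3) k} {φ : (MQ (KK ρ) a b)ˣ} {κ : Qt (up (KK ρ) a) (up (KK ρ) b)}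
  {ε : k} {Ψ : AlbL E a b c ≃ₗ[E] AlbL E a b c} (S : SDt H r A B φ κ ε Ψ)

include S

end sgn

section final

variable {k E : Type} [Field k] [NumberField k] [Field E] [NumberField E] [Algebra k E]
  {ρ σ : E ≃ₐ[k] E} {lam : Eˣ} {g : Fin 3 → Eˣ} {th s : E} {kap a b c : kˣ}

/-- **(B1).** The pointwise stabilizers of the frames of the certificates are contained in the
finite residual. -/
theorem frame_resB (W : WH ρ σ lam g th s kap a b c) (hK : KTopB k (KK ρ))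
    (hgood : ∀ τ : k →+* ℝ, τ a < 0 → τ b < 0 → τ c < 0)
    (hw0 : ∃ w0 : E →+* ℝ, w0 (algebraMap k E a) < 0 ∧ w0 (algebraMap k E b) < 0)
    {z i₁ j₁ : MQ E a b} {v : AlbL E a b c} {p₂ p₁ p₀ : k} {A B : Fin 3 → k}
    (C : Cert2 ρ σ lam g (kap : k) z i₁ j₁ v p₂ p₁ p₀ A B)
    {h : AlbL E a b c ≃ₗ[E] AlbL E a b c} (hh : h ∈ GO ρ σ lam g a b c) (hf : FixFr z v h) :
    h ∈ ResB ρ σ lam g a b c := by
  obtain ⟨u, w, w', y', t, hw, hww, hu, hu1, hu2, hu3, hu4, hwD, _, hwz, hyz, hws, hys, hww', hwy,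
    hyy, ht⟩ := H964.exists_uw W C
  obtain ⟨m, z1, P, H, hirr⟩ := exists_FD W C hw hww hwD hwz hws hww'
  obtain ⟨r, A', B', φ, κ, ε, Ψ, S⟩ := H.exists_SD
  have hd0 : dsc p₂ p₁ p₀ ≠ 0 := by
    intro h0
    exact C.dsc (h0 ▸ IsSquare.zero)
  -- the frame
  have hc : Cub z (algebraMap k E p₂) (algebraMap k E p₁) (algebraMap k E p₀) := by
    refine ⟨C.cub, fun t' ht' => ?_⟩
    obtain ⟨e0, e1, e2⟩ := C.ind _ _ _ ht'
    funext i
    fin_cases i
    · exact e0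
    · exact e1
    · exact e2
  have hdE : dsc (algebraMap k E p₂) (algebraMap k E p₁) (algebraMap k E p₀) ≠ 0 := by
    have h1 : dsc (algebraMap k E p₂) (algebraMap k E p₁) (algebraMap k E p₀) =
        algebraMap k E (dsc p₂ p₁ p₀) := by
      rw [dsc, dsc]
      simp only [map_add, map_sub, map_mul, map_pow, map_ofNat]
    rw [h1]
    exact (_root_.map_ne_zero _).mpr hd0
  have hunit := H619.fd_unit C.cub hdE
  refine S.mem_ResB ?_ hh (fun T hT hzT => H.fix_ofF C.inV C.ne C.com hc hunit hf _ hT hzT)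
  refine hK (sK W.rel.σ2 W.rel.comm) (thF W) (kap : k) a b c u w (-p₀) (-p₁) (-p₂) A' (-B') ε
    (kapS W κ) (H64.umap (sK W.rel.σ2 W.rel.comm) φ) (H183.setW W).rank (thF_sq W) (sK_thF W) hirr
    (by rw [dsc3_neg]; exact C.dsc) (by rw [dsc3_neg]; exact C.dsc') hu1 hu2
    (by rw [dsc3_neg]; exact hu3) (by rw [dsc3_neg]; exact hu4) hw hww (divk W) hu hgood ?_ S.hA
    (by rw [Matrix.mul_neg, Matrix.neg_mul, S.hB]) ?_ S.hε0 ?_ ?_ ?_
  · obtain ⟨w0, h1, h2⟩ := hw0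
    refine ⟨w0.comp (algebraMap k E), (hu _).2 ⟨h1, h2⟩, ?_⟩
    change 0 < w0 (algebraMap k E (kap : k))
    rw [← W.th2, map_pow]
    have h3 : w0 th ≠ 0 := (_root_.map_ne_zero w0).mpr W.th_ne
    positivity
  · intro i j
    have h1 : ((H64.umap (sK W.rel.σ2 W.rel.comm) φ : (MQ (KK ρ) a b)ˣ) : MQ (KK ρ) a b) =
        phE (thF W) w A' (-B') := by
      rw [H64.umap_val, S.hφ, phE_map, sK_thF, phE_neg]
    rw [h1]
    rfl
  · rw [kapS, nrd_qmap]
    exact (_root_.map_ne_zero _).mpr S.nrd_ne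
  · rw [neg_mul_neg]
    exact S.norm
  · intro τ hk hτu
    obtain ⟨ha, hb⟩ := (hu τ).1 hτu
    refine S.sign (by rw [dsc3_neg]; exact hd0) hyz hys hwy hyy hk ha hb (fun x hx => ?_)
    apply ht τ x _ hk ha hb
    rw [map_neg, map_neg, map_neg] at hx
    linear_combination hx

end final

end Vale.Agent.P011.E6W.H684

end part1

section part2

open NumberField Matrix IsDedekindDomain

namespace Vale.Agent.P011.E6W.H7

open Vale.Agent.P011.MPQ hiding mat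
open Vale.Agent.P011.D4 Vale.Agent.P011.D4.Oct Vale.Agent.P011.E6
open Vale.Agent.P011.E6O (GO ResB KK)
open Vale.Agent.P011.E6W.H183
open Vale.Agent.P011.E6H (IsSextic IsForm OpenAtB)

variable {k E : Type} [Field k] [NumberField k] [Field E] [NumberField E] [Algebra k E]
  {ρ σ : E ≃ₐ[k] E} {lam : Eˣ} {g : Fin 3 → Eˣ} {th s : E} {kap a b c : kˣ}

/-- The stabilizers of the frames close to the standard frame. -/
theorem frResB (W : WH ρ σ lam g th s kap a b c) (hK : H684.KTopB k (KK ρ))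
    (hgood : ∀ τ : k →+* ℝ, τ a < 0 → τ b < 0 ∧ τ c < 0) {z₀ v₀ : Matrix (Fin 3) (Fin 3) E}
    {q₁ q₀ : k} {w₀ : E →+* ℝ} (B : Base ρ σ lam g a b c z₀ v₀ q₁ q₀ w₀) :
    FrResB ρ σ lam g a b c z₀ v₀ := by
  obtain ⟨t, ht, h1⟩ := H541.near_cert2 W B
  obtain ⟨w, hwa, hwb, -⟩ := H541.exists_real W.hdiv
  refine ⟨t, ht, fun z v p₂ p₁ p₀ hF hz hv φ hφ hf => ?_⟩
  obtain ⟨i₁, j₁, A, A', C⟩ := h1 z v p₂ p₁ p₀ hF hz hv
  exact H684.frame_resB W hK (fun τ ha _ => (hgood τ ha).2) ⟨w, hwa, hwb⟩ C hφ hf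

/-- The elements close to the identity belong to the finite residual. -/
theorem near_divB (W : WH ρ σ lam g th s kap a b c) (hK : H684.KTopB k (KK ρ))
    (hSix : ∀ {a b c : kˣ} {th s : E} (W : WH ρ σ lam g th s kap a b c),
      One.Tdiv k (KW W) (BW W) = ∅ → SixAt W) :
    ∃ t : ℝ, 0 < t ∧ ∀ φ ∈ GO ρ σ lam g a b c, NearA t φ → φ ∈ ResB ρ σ lam g a b c :=
  near_resB W (fun W' hT => hSix W' hT) fun W' hgood _ _ _ _ _ B _ => frResB W' hK hgood B

end Vale.Agent.P011.E6W.H7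

end part2
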