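import Vale.Agent.P011N.E1.X1
import Vale.Agent.P011.E6H.XBad
import Vale.Agent.P011.E6X.End1
import Vale.Agent.P011.E6X.End2
import Vale.Agent.P011.E6X.H493.NearX
import Vale.Agent.P011.E6X.H637.Sg
import Vale.Agent.P011.E6X.H714.Cmp

/-!
Big subgroups, when the octonion algebra contains the quadratic extension: openness.
-/

open Vale.Agent.P011N.E1 (Bg)

section part0

open NumberField

namespace Vale.Agent.P011.E6X.H493

open Vale.Agent.P011.E6O
open Vale.Agent.P011.MPQ Vale.Agent.P011.D4 Vale.Agent.P011.D4.Oct Vale.Agent.P011.E6 Alb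
open scoped ComplexConjugate

section gen

variable {k E : Type} [Field k] [Field E] [Algebra k E]
  {ρ σ : E ≃ₐ[k] E} {lam : Eˣ} {g : Fin 3 → Eˣ} {al s : E} {a b c : kˣ}

variable (ρ σ lam g al) in
/-- An element of the residual moves the space to a standard point. -/
def GoodB (B : Submodule E (AlbL E a b c)) : Prop :=
  ∃ n ∈ ResB ρ σ lam g a b c, ∃ w : Oct a b c, Perp w ∧
    B.map (n : AlbL E a b c →ₗ[E] AlbL E a b c) = Pw al w

theorem good_of_mapB {n : AlbL E a b c ≃ₗ[E] AlbL E a b c} (hn : n ∈ ResB ρ σ lam g a b c)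
    {B : Submodule E (AlbL E a b c)}
    (h : GoodB ρ σ lam g al (B.map (n : AlbL E a b c →ₗ[E] AlbL E a b c))) :
    GoodB ρ σ lam g al B := by
  obtain ⟨m, hm, w, hw, h1⟩ := h
  exact ⟨m * n, mul_mem hm hn, w, hw, by rw [map_mul', h1]⟩

theorem res_leB : ResB ρ σ lam g a b c ≤ GO ρ σ lam g a b c := by
  rintro _ ⟨x, -, rfl⟩
  exact x.2

variable [NumberField k] [NumberField E]

/-- Transport of `Good` along a change of coordinates. -/
theorem good_tripB (H : Hyp ρ σ lam g al s a b c) {b' c' : kˣ} {j l : Oct a b c}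
    (ht : Trip a b' c' gi j l) {B : Submodule E (AlbL E a b c)}
    (h : GoodB ρ σ lam g al (B.map ((tripA E ht).symm : AlbL E a b c →ₗ[E] AlbL E a b' c'))) :
    GoodB ρ σ lam g al B := by
  obtain ⟨m, hm, w, hw, h1⟩ := h
  have h2 := (trip_ResB H ht (Ψ := tripA E ht) (tripA_apply ht) (φ := m)).2.1 hm
  refine ⟨_, h2, _, perp_trip ht hw, ?_⟩
  rw [← Pw_trip ht w, ← h1, ← Submodule.map_comp, ← Submodule.map_comp]
  rfl

/-- A point of a line `yI` with a known type is good. -/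
theorem good_frB (H : Hyp ρ σ lam g al s a b c) {f1 f2 : E} (h1 : ρ f1 = f1) (h2 : ρ f2 = f2)
    (h0 : f1 ≠ 0 ∨ f2 ≠ 0) {A : Submodule E (AlbL E a b c)} (hA : IsPt ρ lam A)
    (hAy : ∀ y ∈ A, ∃ u s, y = Sl.yI al f1 f2 u s) {f : k} (hf : f ≠ 0) (hT : Ty σ g f A)
    (hs : ∀ w, SC σ w → (vk w (b : k) < 0 → vk w (c : k) < 0 → 0 < vk w f) ∧
      (0 < vk w (b : k) ∨ 0 < vk w (c : k) → vk w (c : k) < 0 ∨ vk w f < 0)) :
    GoodB ρ σ lam g al A := by
  obtain ⟨b', j', ht, hle⟩ := Sl.frame H h1 h2 h0 hAy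
  apply good_tripB H ht
  refine E6X.TB (Hyp.trip H ht) hf ?_ (isPt_trip ht hA) hle
    (fun w hw => tyAt_trip ht (hT w hw))
  intro w hw hb'
  obtain ⟨τ, hτ, ha⟩ := exists_tau H hw
  have hc0 : vk w (c : k) ≠ 0 := vk_ne H hw c.ne_zero
  have hb0 : vk w (b : k) ≠ 0 := vk_ne H hw b.ne_zero
  obtain ⟨hs1, hs2⟩ := hs w hw
  rw [vk_neg, vk_mul H hw, neg_pos]
  rcases lt_or_gt_of_ne hc0 with hc | hc
  · -- `c` is negative
    have hd : Dfn τ a b c := Dfn.of_trip ht ⟨ha, by rwa [← hτ], by rwa [← hτ]⟩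
    have hb : vk w (b : k) < 0 := by rw [hτ]; exact hd.2.1
    exact mul_neg_of_neg_of_pos hc (hs1 hb hc)
  · rcases hs2 (Or.inr hc) with h3 | h3
    · exact absurd h3 (not_lt.2 hc.le)
    · exact mul_neg_of_pos_of_neg hc h3

end gen

end Vale.Agent.P011.E6X.H493

end part0

section part1

open NumberField

namespace Vale.Agent.P011.E6X.H493

open Vale.Agent.P011.E6O
open Vale.Agent.P011.MPQ Vale.Agent.P011.D4 Vale.Agent.P011.D4.Oct Vale.Agent.P011.E6 Alb

variable {k E : Type} [Field k] [NumberField k] [Field E] [NumberField E] [Algebra k E]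
  {ρ σ : E ≃ₐ[k] E} {lam : Eˣ} {g : Fin 3 → Eˣ} {al s : E} {a b c : kˣ}

/-- The neighbours of the first standard point. -/
theorem good_adj0B (H : Hyp ρ σ lam g al s a b c) {B : Submodule E (AlbL E a b c)}
    (hB : IsPt ρ lam B) (h : ∀ x ∈ B, ∀ y ∈ Pw al (gl : Oct a b c), adj (x + y) = 0)
    {f : k} (hf : f ≠ 0) (hT : Ty σ g f B)
    (hs : ∀ w, SC σ w → (vk w (b : k) < 0 → vk w (c : k) < 0 → 0 < vk w f) ∧
      (0 < vk w (b : k) ∨ 0 < vk w (c : k) → vk w (c : k) < 0 ∨ vk w f < 0)) :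
    GoodB ρ σ lam g al B := by
  obtain ⟨f1, f2, h1, h2, h0, hx⟩ := Sl.slideC H two_ne_zero hB
    (fun x hx r => h x hx _ (yI_mem r))
  exact good_frB H h1 h2 h0 hB hx hf hT hs

/-- The neighbours of a standard point. -/
theorem good_adj1B (H : Hyp ρ σ lam g al s a b c) (hS : Sg σ b c)
    {B : Submodule E (AlbL E a b c)}
    (hB : IsPt ρ lam B) {w0 : Oct a b c} (hw0 : Perp w0)
    (h : ∀ x ∈ B, ∀ y ∈ Pw al w0, adj (x + y) = 0)
    {f f' : k} (hf : f ≠ 0) (hf' : f' ≠ 0) (hT : Ty σ g f B) (hT' : Ty σ g f' (Pw al w0))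
    (hs : ∀ w, SC σ w → (vk w (b : k) < 0 → vk w (c : k) < 0 → 0 < vk w f) ∧
      (0 < vk w (b : k) → 0 < vk w (c : k) → 0 < vk w f' ∨ vk w f < 0)) :
    GoodB ρ σ lam g al B := by
  obtain ⟨b', c', j, ht⟩ := exists_trip H hw0
  have h3 : (Pw al (gl : Oct a b' c')).map
      (tripA E ht : AlbL E a b' c' →ₗ[E] AlbL E a b c) = Pw al w0 := by
    rw [Pw_trip ht, emb_gl']
  apply good_tripB H ht
  refine good_adj0B (Hyp.trip H ht) (isPt_trip ht hB) ?_ hf
    (fun w hw => tyAt_trip ht (hT w hw)) ?_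
  · rintro _ ⟨x, hx, rfl⟩ y hy
    have h1 : tripA E ht y ∈ Pw al w0 := by
      rw [← h3]
      exact ⟨y, hy, rfl⟩
    have h2 := h x hx _ h1
    have h4 : adj ((tripA E ht).symm (x + tripA E ht y)) = 0 := by
      refine adj_map (fun z => ?_) h2
      rw [← tripA_cub ht, LinearEquiv.apply_symm_apply]
    rw [map_add, LinearEquiv.symm_apply_apply] at h4
    exact h4
  · intro w hw
    have h5 : TyAt σ g w f' (Pw al (gl : Oct a b' c')) := by
      have h6 := tyAt_trip ht (hT' w hw)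
      rw [← h3, ← Submodule.map_comp] at h6
      have h7 : (((tripA E ht).symm : AlbL E a b c →ₗ[E] AlbL E a b' c') ∘ₗ
          (tripA E ht : AlbL E a b' c' →ₗ[E] AlbL E a b c)) = LinearMap.id := by
        ext1 x
        exact (tripA E ht).symm_apply_apply x
      rw [h7, Submodule.map_id] at h6
      exact h6
    have H' := Hyp.trip H ht
    have h8 := tyAt_sign H' hw (neg_ne_zero.2 c'.ne_zero) hf' (isPt_std H').dim
      (tyAt_Pw H' hw) h5
    rw [vk_mul H hw, vk_neg] at h8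
    obtain ⟨hs1, hs2⟩ := hs w hw
    rcases trip_signs H hS ht hw with ⟨k1, k2, k3, k4⟩ | ⟨k1, k2, k3⟩
    · refine ⟨fun _ _ => hs1 k1 k2, fun h9 => ?_⟩
      left
      exact k4
    · refine ⟨fun h9 h10 => ?_, fun _ => ?_⟩
      · rcases k3 with k3 | k3
        · exact absurd h9 (not_lt.2 k3.le)
        · exact absurd h10 (not_lt.2 k3.le)
      · rcases hs2 k1 k2 with h9 | h9
        · left
          by_contra h10
          have h11 : 0 ≤ vk w (c' : k) := not_lt.1 h10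
          have h12 : -vk w (c' : k) * vk w f' ≤ 0 :=
            mul_nonpos_of_nonpos_of_nonneg (neg_nonpos.2 h11) h9.le
          exact absurd h8 (not_lt.2 h12)
        · right
          exact h9

/-- The neighbours of a good point. -/
theorem good_adjB (H : Hyp ρ σ lam g al s a b c) (hS : Sg σ b c)
    {B A : Submodule E (AlbL E a b c)}
    (hB : IsPt ρ lam B) (hA : GoodB ρ σ lam g al A)
    (h : ∀ x ∈ B, ∀ y ∈ A, adj (x + y) = 0)
    {f f' : k} (hf : f ≠ 0) (hf' : f' ≠ 0) (hT : Ty σ g f B) (hT' : Ty σ g f' A)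
    (hs : ∀ w, SC σ w → (vk w (b : k) < 0 → vk w (c : k) < 0 → 0 < vk w f) ∧
      (0 < vk w (b : k) → 0 < vk w (c : k) → 0 < vk w f' ∨ vk w f < 0)) :
    GoodB ρ σ lam g al B := by
  obtain ⟨n, hn, w, hw, h1⟩ := hA
  apply good_of_mapB hn
  refine good_adj1B H hS (isPt_map (res_leB hn) hB) hw ?_ hf hf'
    (fun v hv => tyAt_map (hT v hv) (res_leB hn))
    (fun v hv => by rw [← h1]; exact tyAt_map (hT' v hv) (res_leB hn)) hs
  rintro _ ⟨x, hx, rfl⟩ y hy
  rw [← h1] at hy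
  obtain ⟨y, hy, rfl⟩ := hy
  change adj (n x + n y) = 0
  rw [← map_add]
  exact adj_map (res_leB hn).1 (h x hx y hy)

/-- The point adjacent to `P` and to the point opposite to `U`, with the sign argument. -/
theorem exists_midB (H : Hyp ρ σ lam g al s a b c) (hS : Sg σ b c)
    {P U : Submodule E (AlbL E a b c)} (hP : IsPt ρ lam P) (hU : IsPt ρ lam U)
    (hUl : U ≤ Iln c (E6O.em al)) (horth : ∀ y ∈ U, ∀ x ∈ P, her σ g y x = 0)
    (hTU : Ty σ g ((b : k) * c) U) :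
    ∃ A : Submodule E (AlbL E a b c), IsPt ρ lam A ∧
      (∀ x ∈ P, ∀ y ∈ A, adj (x + y) = 0) ∧
      (∀ x ∈ opp σ g al U, ∀ y ∈ A, adj (x + y) = 0) ∧
      (Ty σ g (-(b : k)) A → GoodB ρ σ lam g al A) := by
  have hb0 : (b : k) ≠ 0 := b.ne_zero
  have hc0 : (c : k) ≠ 0 := c.ne_zero
  have hbc0 : (b : k) * c ≠ 0 := mul_ne_zero hb0 hc0
  obtain ⟨n, hn, w0, hw0, h1, h2⟩ := E6X.TmB H hbc0 (by
    intro w hw hb
    have hc : vk w (c : k) ≠ 0 := vk_ne H hw hc0
    rw [vk_neg, vk_mul H hw, vk_mul H hw]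
    have : 0 < vk w (c : k) ^ 2 := by positivity
    nlinarith) hU hUl hTU
  obtain ⟨b', c', j, ht⟩ := exists_trip H hw0
  have H' := Hyp.trip H ht
  have hGO := res_leB hn
  -- the transported point
  set P2 := (P.map (n : AlbL E a b c →ₗ[E] AlbL E a b c)).map
    ((tripA E ht).symm : AlbL E a b c →ₗ[E] AlbL E a b' c') with hP2
  have hP2' : IsPt ρ lam P2 := isPt_trip ht (isPt_map hGO hP)
  have hcb : ∀ x ∈ P2, cb al x.x1.snd = 0 ∧ cb al x.x2.snd = 0 ∧ cb al x.x3.snd = 0 := by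
    rintro _ ⟨_, ⟨x, hx, rfl⟩, rfl⟩
    apply cb_of_her H'
    intro y hy
    have h4 : tripA E ht y ∈ Pm al w0 := by
      have h3 : tripA E ht y ∈ (Pm al (gl : Oct a b' c')).map
          (tripA E ht : AlbL E a b' c' →ₗ[E] AlbL E a b c) := ⟨y, hy, rfl⟩
      rwa [Pm_trip ht, emb_gl'] at h3
    rw [← h1] at h4
    obtain ⟨z, hz, hzy⟩ := h4
    change her σ g y ((tripA E ht).symm (n x)) = 0
    rw [← tripA_her ht, LinearEquiv.apply_symm_apply, ← hzy]
    change her σ g (n z) (n x) = 0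
    rw [hGO.2.2]
    exact horth z hz x hx
  obtain ⟨f1, f2, e1, e2, e0, A2, hA2, hAy, hadj⟩ := Sl.slideB H' two_ne_zero hP2' hcb
  -- back
  set A1 := A2.map (tripA E ht : AlbL E a b' c' →ₗ[E] AlbL E a b c) with hA1
  have hA1p : IsPt ρ lam A1 := isPt_map' (tripA_cub ht) (tripA_ph ht) hA2
  set A := A1.map ((n⁻¹ : AlbL E a b c ≃ₗ[E] AlbL E a b c) : AlbL E a b c →ₗ[E] AlbL E a b c)
    with hA
  have hinv : n⁻¹ ∈ GO ρ σ lam g a b c := inv_mem hGO
  have hAp : IsPt ρ lam A := isPt_map hinv hA1p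
  have hmem : ∀ y ∈ A, ∃ z ∈ A2, y = n⁻¹ (tripA E ht z) := by
    rintro _ ⟨_, ⟨z, hz, rfl⟩, rfl⟩
    exact ⟨z, hz, rfl⟩
  have hback : ∀ (x : AlbL E a b c) (z : AlbL E a b' c'),
      adj ((tripA E ht).symm (n x) + z) = 0 → adj (x + n⁻¹ (tripA E ht z)) = 0 := by
    intro x z h3
    have h4 : adj (tripA E ht ((tripA E ht).symm (n x) + z)) = 0 := adj_map (tripA_cub ht) h3
    rw [map_add, LinearEquiv.apply_symm_apply] at h4
    have h5 : adj (n⁻¹ (n x + tripA E ht z)) = 0 := adj_map hinv.1 h4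
    rw [map_add] at h5
    have h6 : n⁻¹ (n x) = x := by
      rw [← LinearEquiv.mul_apply, inv_mul_cancel]
      rfl
    rwa [h6] at h5
  refine ⟨A, hAp, ?_, ?_, ?_⟩
  · intro x hx y hy
    obtain ⟨z, hz, rfl⟩ := hmem y hy
    apply hback
    exact hadj z hz _ ⟨_, ⟨x, hx, rfl⟩, rfl⟩
  · intro x hx y hy
    obtain ⟨z, hz, rfl⟩ := hmem y hy
    apply hback
    have h3 : (tripA E ht).symm (n x) ∈ Pw al (gl : Oct a b' c') := by
      have h4 : n x ∈ Pw al w0 := by
        rw [← h2]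
        exact ⟨x, hx, rfl⟩
      have h5 : (Pw al (gl : Oct a b' c')).map
          (tripA E ht : AlbL E a b' c' →ₗ[E] AlbL E a b c) = Pw al w0 := by
        rw [Pw_trip ht, emb_gl']
      rw [← h5] at h4
      obtain ⟨y, hy, h6⟩ := h4
      rw [← h6]
      change (tripA E ht).symm (tripA E ht y) ∈ _
      rw [LinearEquiv.symm_apply_apply]
      exact hy
    obtain ⟨r, hr⟩ := eq_yI_of_mem h3
    obtain ⟨u, t, hu⟩ := hAy z hz
    rw [hr, hu, add_comm, yI_add]
    exact Sl.adj_yI two_ne_zero H'.al2 _ _ _ _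
  · intro hTA
    -- the types
    have hTA1 : Ty σ g (-(b : k)) A1 := by
      intro w hw
      have h3 := tyAt_map (hTA w hw) hGO
      rw [hA, map_inv'] at h3
      exact h3
    have hTA2 : Ty σ g (-(b : k)) A2 := by
      intro w hw
      have h3 := tyAt_trip ht (hTA1 w hw)
      rw [hA1, ← Submodule.map_comp] at h3
      have h7 : (((tripA E ht).symm : AlbL E a b c →ₗ[E] AlbL E a b' c') ∘ₗ
          (tripA E ht : AlbL E a b' c' →ₗ[E] AlbL E a b c)) = LinearMap.id := by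
        ext1 x
        exact (tripA E ht).symm_apply_apply x
      rw [h7, Submodule.map_id] at h3
      exact h3
    have hPm : (U.map (n : AlbL E a b c →ₗ[E] AlbL E a b c)).map
        ((tripA E ht).symm : AlbL E a b c →ₗ[E] AlbL E a b' c') = Pm al (gl : Oct a b' c') := by
      have h5 : (Pm al (gl : Oct a b' c')).map
          (tripA E ht : AlbL E a b' c' →ₗ[E] AlbL E a b c) = Pm al w0 := by
        rw [Pm_trip ht, emb_gl']
      rw [h1, ← h5, ← Submodule.map_comp]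
      have h7 : (((tripA E ht).symm : AlbL E a b c →ₗ[E] AlbL E a b' c') ∘ₗ
          (tripA E ht : AlbL E a b' c' →ₗ[E] AlbL E a b c)) = LinearMap.id := by
        ext1 x
        exact (tripA E ht).symm_apply_apply x
      rw [h7, Submodule.map_id]
    have hG1 : GoodB ρ σ lam g al A1 := by
      apply good_tripB H ht
      have h3 : A1.map ((tripA E ht).symm : AlbL E a b c →ₗ[E] AlbL E a b' c') = A2 := by
        rw [hA1, ← Submodule.map_comp]
        have h7 : (((tripA E ht).symm : AlbL E a b c →ₗ[E] AlbL E a b' c') ∘ₗ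
            (tripA E ht : AlbL E a b' c' →ₗ[E] AlbL E a b c)) = LinearMap.id := by
          ext1 x
          exact (tripA E ht).symm_apply_apply x
        rw [h7, Submodule.map_id]
      rw [h3]
      refine good_frB H' e1 e2 e0 hA2 hAy (neg_ne_zero.2 hb0) hTA2 ?_
      intro w hw
      have h5 : TyAt σ g w ((b : k) * c) (Pm al (gl : Oct a b' c')) := by
        rw [← hPm]
        exact tyAt_trip ht (tyAt_map (hTU w hw) hGO)
      have h6 : Module.finrank E (Pm al (gl : Oct a b' c')) = 3 := by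
        rw [← hPm]
        exact (isPt_trip ht (isPt_map hGO hU)).dim
      have h8 := tyAt_sign H' hw (neg_ne_zero.2 c'.ne_zero) hbc0 h6
        (tyAt_Pm H' hw) h5
      rw [vk_mul H hw, vk_mul H hw, vk_neg] at h8
      rw [vk_neg]
      rcases trip_signs H hS ht hw with ⟨k1, k2, k3, k4⟩ | ⟨k1, k2, k3⟩
      · exact ⟨fun _ _ => by linarith, fun _ => Or.inl k4⟩
      · have h9 : vk w (c' : k) < 0 := by
          by_contra h10
          have h11 : 0 ≤ vk w (c' : k) := not_lt.1 h10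
          have h12 : -vk w (c' : k) * (vk w (b : k) * vk w (c : k)) ≤ 0 :=
            mul_nonpos_of_nonpos_of_nonneg (neg_nonpos.2 h11) (mul_pos k1 k2).le
          exact absurd h8 (not_lt.2 h12)
        refine ⟨fun h10 h11 => ?_, fun _ => Or.inl h9⟩
        rcases k3 with k3 | k3
        · exact absurd h10 (not_lt.2 k3.le)
        · exact absurd h11 (not_lt.2 k3.le)
    obtain ⟨m, hm, v, hv, h9⟩ := hG1
    exact ⟨m * n, mul_mem hm hn, v, hv, by rw [map_mul', hA, map_inv', h9]⟩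

/-- If the types are known, the point is good. -/
theorem good_of_typesB (H : Hyp ρ σ lam g al s a b c) (hS : Sg σ b c)
    {P : Submodule E (AlbL E a b c)} (hP : IsPt ρ lam P) (hTP : Ty σ g (-(c : k)) P)
    (hU : ∀ U : Submodule E (AlbL E a b c), IsPt ρ lam U → U ≤ Iln c (E6O.em al) →
      (∀ y ∈ U, ∀ x ∈ P, her σ g y x = 0) → Ty σ g ((b : k) * c) U ∧
        ∀ A : Submodule E (AlbL E a b c), IsPt ρ lam A → (∀ x ∈ P, ∀ y ∈ A, adj (x + y) = 0) →
          (∀ x ∈ opp σ g al U, ∀ y ∈ A, adj (x + y) = 0) → Ty σ g (-(b : k)) A) :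
    GoodB ρ σ lam g al P := by
  obtain ⟨U, hUp, hUl, horth⟩ := exists_orth H hP
  obtain ⟨hTU, hA⟩ := hU U hUp hUl horth
  obtain ⟨A, hAp, h1, h2, h3⟩ := exists_midB H hS hP hUp hUl horth hTU
  have hTA := hA A hAp h1 h2
  refine good_adjB H hS hP (h3 hTA) h1 (neg_ne_zero.2 c.ne_zero) (neg_ne_zero.2 b.ne_zero) hTP hTA
    ?_
  intro w hw
  rw [vk_neg, vk_neg]
  exact ⟨fun _ h4 => by linarith, fun _ h4 => Or.inr (by linarith)⟩

end Vale.Agent.P011.E6X.H493

end part1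

section part2

open NumberField

namespace Vale.Agent.P011.E6X

open Vale.Agent.P011.E6O
open Vale.Agent.P011.MPQ Vale.Agent.P011.D4 Vale.Agent.P011.D4.Oct Vale.Agent.P011.E6 Alb

variable {k E : Type} [Field k] [NumberField k] [Field E] [NumberField E] [Algebra k E]
  {ρ σ : E ≃ₐ[k] E} {lam : Eˣ} {g : Fin 3 → Eˣ} {al s : E} {a b c : kˣ}

/-- **The elements near the identity carry the first standard point to a standard point**, up to
an element of the residual. -/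
theorem near_slideB (H : Hyp ρ σ lam g al s a b c) (hS : Sg σ b c) :
    ∃ ε : ℝ, 0 < ε ∧ ∀ h ∈ GO ρ σ lam g a b c, NearS σ g al ε h →
      ∃ n ∈ ResB ρ σ lam g a b c, ∃ w : Oct a b c, Perp w ∧
        (Pw al (gl : Oct a b c)).map ((n * h : AlbL E a b c ≃ₗ[E] AlbL E a b c) :
          AlbL E a b c →ₗ[E] AlbL E a b c) = Pw al w := by
  classical
  choose ε hε hε' using H493.near_w H (ρ := ρ) (σ := σ) (lam := lam) (g := g) (al := al)
    (s := s) (a := a) (b := b) (c := c)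
  obtain ⟨ε0, h0, h0'⟩ : ∃ ε0 : ℝ, 0 < ε0 ∧ ∀ w, ε0 ≤ ε w := by
    rcases isEmpty_or_nonempty (E →+* ℂ) with he | he
    · exact ⟨1, one_pos, fun w => (he.false w).elim⟩
    · refine ⟨Finset.univ.inf' Finset.univ_nonempty ε,
        (Finset.lt_inf'_iff _).2 fun w _ => hε w, fun w => Finset.inf'_le _ (Finset.mem_univ w)⟩
  refine ⟨ε0, h0, fun h hh hn => ?_⟩
  have hai : ai E a b c ∈ ResB ρ σ lam g a b c := aut_ResB H (autI a b c) (ai_aup (E := E))
  set P := (Pw al (gl : Oct a b c)).map ((ai E a b c * h : AlbL E a b c ≃ₗ[E] AlbL E a b c) :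
    AlbL E a b c →ₗ[E] AlbL E a b c) with hP
  have hGO : ai E a b c * h ∈ GO ρ σ lam g a b c := mul_mem (H493.res_leB hai) hh
  have hPp : IsPt ρ lam P := H493.isPt_map hGO (H493.isPt_std H)
  have hTP : Ty σ g (-(c : k)) P := fun w hw => tyAt_map (tyAt_Pw H hw) hGO
  have hσg : ∀ i, σ (g i) = g i := H.σg
  have key := H493.good_of_typesB H hS hPp hTP (by
    intro U hU hUl horth
    have hU' : ∀ w, SC σ w → ¬ Cp g b c w → TyAt σ g w ((b : k) * c) U ∧
        ∀ A : Submodule E (AlbL E a b c), IsPt ρ lam A → (∀ x ∈ P, ∀ y ∈ A, adj (x + y) = 0) →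
          (∀ x ∈ opp σ g al U, ∀ y ∈ A, adj (x + y) = 0) → TyAt σ g w (-(b : k)) A := by
      intro w hw hc
      refine hε' w hw h hh (fun x => ?_) P hP hPp U hU hUl horth
      refine (hn w hw hc x).trans ?_
      exact mul_le_mul_of_nonneg_right (h0' w) (H493.nw_nonneg _ _)
    constructor
    · intro w hw
      by_cases hc : Cp g b c w
      · refine tyAt_pos H hw
          (fun x hx => her_pos two_ne_zero H.al2 H.σal hw hσg hc hx) hc.2.2 ?_ hU.dim
        rw [H493.vk_mul H hw]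
        exact mul_pos_of_neg_of_neg hc.1 hc.2.1
      · exact (hU' w hw hc).1
    · intro A hA h1 h2 w hw
      by_cases hc : Cp g b c w
      · refine tyAt_pos H hw
          (fun x hx => her_pos two_ne_zero H.al2 H.σal hw hσg hc hx) hc.2.2 ?_ hA.dim
        rw [H493.vk_neg]
        exact neg_pos.2 hc.1
      · exact (hU' w hw hc).2 A hA h1 h2)
  obtain ⟨n, hn', v, hv, h3⟩ := key
  refine ⟨n * ai E a b c, mul_mem hn' hai, v, hv, ?_⟩
  rw [← h3, hP, ← H493.map_mul', mul_assoc]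

end Vale.Agent.P011.E6X

end part2

section part3

open NumberField

namespace Vale.Agent.P011.E6X

open Vale.Agent.P011.E6O
open Vale.Agent.P011.MPQ Vale.Agent.P011.D4 Vale.Agent.P011.D4.Oct Vale.Agent.P011.E6

variable {k E : Type} [Field k] [NumberField k] [Field E] [NumberField E] [Algebra k E]
  {ρ σ : E ≃ₐ[k] E} {lam : Eˣ} {g : Fin 3 → Eˣ} {al s : E} {a b c : kˣ}

/-- **The elements near the identity are in the finite residual.** -/
theorem near_resB (H : Hyp ρ σ lam g al s a b c) (hS : Sg σ b c) :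
    ∃ ε : ℝ, 0 < ε ∧ ∀ h ∈ GO ρ σ lam g a b c, NearS σ g al ε h →
      h ∈ ResB ρ σ lam g a b c := by
  obtain ⟨ε, h0, h1⟩ := near_slideB H hS
  exact ⟨ε, h0, fun h hh hn => mem_res_of_slideB H hh (h1 h hh hn)⟩

end Vale.Agent.P011.E6X

end part3

section part4

open NumberField

namespace Vale.Agent.P011.E6X.H637

open Vale.Agent.P011.MPQ Vale.Agent.P011.D4 Vale.Agent.P011.D4.Oct Vale.Agent.P011.E6

section trips

variable {k : Type} [Field k] {a b c : kˣ}

end trips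

section frames

variable {k : Type} [Field k] [NumberField k] {a b c : kˣ}

end frames

section bound

variable {k E : Type} [Field k] [Field E] [NumberField E] [Algebra k E]
  {ρ σ : E ≃ₐ[k] E} {lam : Eˣ} {g : Fin 3 → Eˣ} {al s : E} {a b c b' c' : kˣ}

end bound

end Vale.Agent.P011.E6X.H637

namespace Vale.Agent.P011.E6X

open Vale.Agent.P011.MPQ Vale.Agent.P011.D4 Vale.Agent.P011.D4.Oct Vale.Agent.P011.E6
open Vale.Agent.P011.E6O
open Vale.Agent.P011.E6X.H637

variable {k E : Type} [Field k] [NumberField k] [Field E] [NumberField E] [Algebra k E]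
  {ρ σ : E ≃ₐ[k] E} {lam : Eˣ} {g : Fin 3 → Eˣ} {al s : E} {a b c b' c' : kˣ}

variable (ρ σ lam g al a b c) in
/-- The elements near `1` belong to the finite residual. -/
def NearResB : Prop := ∃ ε : ℝ, 0 < ε ∧ ∀ h ∈ GO ρ σ lam g a b c, NearS σ g al ε h →
  h ∈ ResB ρ σ lam g a b c

/-- The statement does not depend on the coordinates. -/
theorem nearRes_tripB (H : E6X.Hyp ρ σ lam g al s a b c) {j l : Oct a b c}
    (ht : Trip a b' c' gi j l) (hC : ∀ w, SC σ w → Cp g b c w → Cp g b' c' w)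
    (hN : NearResB ρ σ lam g al a b' c') : NearResB ρ σ lam g al a b c := by
  obtain ⟨ε, hε, h1⟩ := hN
  let Ψ : AlbL E a b' c' ≃ₗ[E] AlbL E a b c := tripA E ht
  have hΨ : ∀ x, Ψ x = Alb.omapA (emb (oup E gi) (oup E j) (oup E l)) x := tripA_apply ht
  obtain ⟨C, hC0, hC1⟩ := exists_bound H.al2 (Ψ : AlbL E a b' c' →ₗ[E] AlbL E a b c)
  obtain ⟨C', hC0', hC1'⟩ := exists_bound H.al2 (Ψ.symm : AlbL E a b c →ₗ[E] AlbL E a b' c')
  refine ⟨ε / (C' * C), by positivity, fun h hh hn => ?_⟩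
  let φ : AlbL E a b' c' ≃ₗ[E] AlbL E a b' c' := (Ψ.trans h).trans Ψ.symm
  have hφ : (Ψ.symm.trans φ).trans Ψ = h := by
    apply LinearEquiv.ext
    intro x
    change Ψ (Ψ.symm (h (Ψ (Ψ.symm x)))) = h x
    rw [LinearEquiv.apply_symm_apply, LinearEquiv.apply_symm_apply]
  obtain ⟨e1, e2⟩ := trip_ResB H ht hΨ (φ := φ)
  rw [hφ] at e1 e2
  refine e2.1 (h1 φ (e1.2 hh) fun w hw hcw x => ?_)
  have h2 := hn w hw (fun h' => hcw (hC w hw h')) (Ψ x)
  have h3 : φ x - x = Ψ.symm (h (Ψ x) - Ψ x) := by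
    rw [map_sub, LinearEquiv.symm_apply_apply]
    rfl
  rw [h3]
  have h4 := hC1' w (h (Ψ x) - Ψ x)
  have h5 := hC1 w x
  calc nw w al (Ψ.symm (h (Ψ x) - Ψ x)) ≤ C' * nw w al (h (Ψ x) - Ψ x) := h4
    _ ≤ C' * (ε / (C' * C) * nw w al (Ψ x)) := by gcongr
    _ ≤ C' * (ε / (C' * C) * (C * nw w al x)) := by
      refine mul_le_mul_of_nonneg_left (mul_le_mul_of_nonneg_left h5 (by positivity)) hC0'.le
    _ = ε * nw w al x := by field_simp

/-- The sign hypothesis can be removed. -/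
theorem nearRes_ofB (H : E6X.Hyp ρ σ lam g al s a b c)
    (h : ∀ b' c' : kˣ, E6X.Hyp ρ σ lam g al s a b' c' → Sg σ b' c' →
      NearResB ρ σ lam g al a b' c') : NearResB ρ σ lam g al a b c := by
  obtain ⟨t, c₁, hc₁, h1⟩ := exists_c H.hdiv
  have ht₁ := trip1 (a := a) t hc₁
  have H₁ := H.trip ht₁
  obtain ⟨t', b₁, hb₁, h2⟩ := exists_b H₁.hdiv
  have ht₂ := trip2 (a := a) t' hb₁
  have H₂ := H₁.trip ht₂
  have hv : ∀ (w : E →+* ℂ) (τ : k →+* ℝ), (∀ t : k, w (algebraMap k E t) = (τ t : ℂ)) →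
      ∀ t : k, vk w t = τ t := by
    intro w τ hτ t
    rw [vk, hτ, Complex.ofReal_re]
  refine nearRes_tripB H ht₁ (fun w hw hcp => ?_) (nearRes_tripB H₁ ht₂ (fun w hw hcp => ?_)
    (h b₁ c₁ H₂ fun w hw => ?_))
  · obtain ⟨τ, hτ, -⟩ := H.exists_tau hw
    obtain ⟨hb, hc, hg⟩ := hcp
    refine ⟨hb, ?_, hg⟩
    rw [hv w τ hτ] at hb hc ⊢
    exact ((h1 τ).2 hb).2 hc
  · obtain ⟨τ, hτ, -⟩ := H.exists_tau hw
    obtain ⟨hb, hc, hg⟩ := hcp
    refine ⟨?_, hc, hg⟩
    rw [hv w τ hτ] at hb hc ⊢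
    exact ((h2 τ).2 hc).2 hb
  · obtain ⟨τ, hτ, -⟩ := H.exists_tau hw
    rw [hv w τ hτ, hv w τ hτ]
    have hc₁0 : τ c₁ ≠ 0 := (map_ne_zero τ).2 c₁.ne_zero
    have hb0 : τ b ≠ 0 := (map_ne_zero τ).2 b.ne_zero
    rcases lt_or_gt_of_ne hc₁0 with hc | hc
    · refine Or.inl ⟨?_, hc⟩
      refine ((h2 τ).2 hc).2 ?_
      rcases lt_or_gt_of_ne hb0 with hb | hb
      · exact hb
      · exact absurd hc (not_lt.2 ((h1 τ).1 hb).le)
    · exact Or.inr ⟨(h2 τ).1 hc, hc⟩

end Vale.Agent.P011.E6X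

end part4

section part5

open NumberField Matrix

namespace Vale.Agent.P011.E6X

open Vale.Agent.P011.MPQ Vale.Agent.P011.D4 Vale.Agent.P011.D4.Oct Vale.Agent.P011.E6
open Vale.Agent.P011.E6O

variable {k E : Type} [Field k] [NumberField k] [Field E] [NumberField E] [Algebra k E]
  {ρ σ : E ≃ₐ[k] E} {lam : Eˣ} {g : Fin 3 → Eˣ} {al s : E} {a b c : kˣ}

/-- The elements near `1` belong to the finite residual. -/
theorem near_res_allB (H : E6X.Hyp ρ σ lam g al s a b c) :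
    ∃ ε : ℝ, 0 < ε ∧ ∀ h ∈ GO ρ σ lam g a b c, NearS σ g al ε h →
      h ∈ ResB ρ σ lam g a b c :=
  nearRes_ofB H fun _ _ H' hS => near_resB H' hS

/-- Every subgroup of finite index contains the elements near `1`. -/
theorem open_of_near_allB (H : E6X.Hyp ρ σ lam g al s a b c)
    (N : Subgroup (GO ρ σ lam g a b c)) (hN : Bg N) :
    ∃ ε : ℝ, 0 < ε ∧ ∀ h : GO ρ σ lam g a b c, NearS σ g al ε h.1 → h ∈ N := by
  obtain ⟨ε, hε, h1⟩ := near_res_allB H
  exact ⟨ε, hε, fun h hn => mem_of_mem_resB hN (h1 h.1 h.2 hn)⟩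

end Vale.Agent.P011.E6X

end part5

section part6

open NumberField

namespace Vale.Agent.P011.E6X

open Vale.Agent.P011.MPQ Vale.Agent.P011.D4 Vale.Agent.P011.E6 Vale.Agent.P011.E6O
open Vale.Agent.P011.E6H (OpenAtB Bad IsSextic IsForm)

variable {k E : Type} [Field k] [NumberField k] [Field E] [NumberField E] [Algebra k E]
  {ρ σ : E ≃ₐ[k] E} {lam : Eˣ} {g : Fin 3 → Eˣ} {a b c : kˣ}

/-- Openness of the subgroups of finite index. -/
theorem e6x_openB (h : IsSextic ρ σ a) (hC : Oct.Division a b c) (hg : IsForm ρ σ lam g) :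
    OpenAtB (Bad σ b c g) (E6H.GHer σ g a b c ⊓ E6H.GPh ρ lam a b c) := by
  obtain ⟨al, s, H⟩ := hyp_of h hg hC
  have hal : al ≠ 0 := by
    rintro rfl
    have e : algebraMap k E a = 0 := by rw [← H.al2]; ring
    exact a.ne_zero ((map_eq_zero _).mp e)
  exact E6H.openAt_badB fun N hN => open_of hal (open_of_near_allB H N hN)

end Vale.Agent.P011.E6X

end part6
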