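import Vale.Agent.P011N.E0.Brg
import Vale.Agent.P011N.E1.Mod
import Vale.Agent.P011N.E1.Real
import Vale.Agent.P011N.E1.X2
import Vale.Agent.P011N.E1.W2
import Vale.Agent.P011N.E1.K1
import Vale.Agent.P011N.D1.FinI
import Vale.Agent.P011.H450.R.Real
import Vale.Agent.P011.E6W.H183.SixW
import Vale.Agent.P011.H132.Rl.Tra
import Vale.Agent.P011.H505.Rl.ThmF
import Vale.Agent.P011.H138.Rl.EmbTop
import Vale.Agent.P011.H500.Rl.Front

/-!
The outer groups of type `E₆` with nontrivial Tits class have no proper big subgroup.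
-/

open NumberField

namespace Vale.Agent.P011N.E1

open Vale.Agent.P011N Vale.Agent.P011
open Vale.Agent.P011.MPQ Vale.Agent.P011.D4 Vale.Agent.P011.D4.Oct Vale.Agent.P011.E6
open Vale.Agent.P011.E6H Vale.Agent.P011.H261.Rl

theorem tiAllB (k L : Type) [Field k] [NumberField k] [Field L] [NumberField L] [Algebra k L] :
    E6W.H684.TIAllB k L := by
  intro E _ _ _ _ _ ρ σ ι α a b c q H hdef N hN
  exact hN.2.2.2 k L E ρ σ ι α a b c q H hdef N hN.1

variable {k E : Type} [Field k] [NumberField k] [Field E] [NumberField E] [Algebra k E]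
  {ρ σ : E ≃ₐ[k] E} {kap a b c : kˣ} {lam : Eˣ} {g : Fin 3 → Eˣ}

theorem conn_of (hS : IsSextic ρ σ kap) (hC : Oct.Division a b c) (hg : IsForm ρ σ lam g)
    (φ : E →+* ℂ) (hφ : ¬ RealE φ) : Conn ρ σ lam g a b c φ :=
  H132.Rl.hcn_of_thF (fun _ _ h1 h2 h3 => H505.Rl.thmF h1 h2 h3) hS hC hg φ hφ

/-- The octonion algebra remains a division algebra. -/
theorem top_div (hH : HypE) (hS : IsSextic ρ σ kap) (hC : Oct.Division a b c)
    (hg : IsForm ρ σ lam g) (hE : Oct.Division (up E a) (up E b) (up E c)) :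
    BigTop (G3 ρ σ lam g a b c) := by
  intro N hN
  obtain ⟨th, s, W⟩ := E6W.H7.exists_WH hS hE hg
  have hO := E6W.H7.openAt_of_nearB (E6W.H7.near_divB W
    (E6W.H196.ktopB _ _ fun L _ _ _ => tiAllB _ L) fun W hT => E6W.H183.sixAt W hT)
  refine top_on (S0 := fun _ => True) (H500.Rl.front hS hC hg) (H138.Rl.embNear hS)
    (fun φ _ => ?_) N (hO N ⟨hN, hH⟩)
  by_cases hφ : RealE φ
  · exact H450.R.conn_real hS hg hE hφ
  · exact conn_of hS hC hg φ hφ

/-- The octonion algebra contains the quadratic extension. -/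
theorem top_kap (hH : HypE) (hS : IsSextic ρ σ kap) (hC : Oct.Division kap b c)
    (hg : IsForm ρ σ lam g) : BigTop (G3 ρ σ lam g kap b c) := by
  intro N hN
  refine top_on (S0 := Bad σ b c g) (H500.Rl.front hS hC hg) (H138.Rl.embNear hS)
    (fun φ hφ => ?_) N (E6X.e6x_openB hS hC hg N ⟨hN, hH⟩)
  refine conn_of hS hC hg φ fun hr => ?_
  have h1 : ∀ x, φ (σ x) = φ x := fun x => by rw [hφ.1 x, hr x]
  obtain ⟨x, hx, -, hs⟩ := hS.sq
  have h2 := h1 x
  rw [hs, map_neg, neg_eq_self, map_eq_zero] at h2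
  rw [h2] at hx
  have h3 : algebraMap k E (kap : k) = 0 := by rw [← hx]; ring
  exact kap.ne_zero ((map_eq_zero _).1 h3)

theorem oldE3 (hH : HypE) : E0.OldE3 BigTop := by
  intro k E _ _ _ _ _ ρ σ kap hS a b c hC lam g hg
  by_cases hE : Oct.Division (up E a) (up E b) (up E c)
  · exact top_div hH hS hC hg hE
  · obtain ⟨b', c', h, h'⟩ := H553.Rl.exists_kap_iso hS hC hE
    obtain ⟨e1⟩ := h' lam g
    obtain ⟨e2⟩ := H553.Rl.iso_perm (ρ := ρ) (σ := σ) (lam := lam) (g := g) (a := a) (b := b)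
      (c := c)
    obtain ⟨e3⟩ := H553.Rl.iso_perm (ρ := ρ) (σ := σ) (lam := lam) (g := g) (a := kap) (b := b')
      (c := c')
    exact E0.isoInv_bigTop _ _ (e2.symm.trans (e1.symm.trans e3)) (top_kap hH hS h hg)

/-- **Block E1.** -/
theorem clE3 (hM : MFNF) (hQ : MFQ) : ClE3 BigTop :=
  E0.clE3_of E0.isoInv_bigTop (oldE3 ⟨hM, hQ, D1.tib hQ⟩)

/-- **Block E1**, for the anisotropic groups. -/
theorem clE3A (hM : MFNF) (hQ : MFQ) : ClE3A BigTop :=
  fun F _ _ r s a b c e t g h1 h2 h3 h4 h5 h6 _ => clE3 hM hQ F r s a b c e t g h1 h2 h3 h4 h5 h6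

end Vale.Agent.P011N.E1
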