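import Vale.Agent.P011N.Iface
import Vale.Agent.P011.One.AdicDefs
import Vale.Agent.P011S.Defs2

/-!
Big subgroups of special unitary groups.
-/

open Matrix Module

namespace Vale.Agent.P011N.E1

open Vale.Agent.P011N
open Vale.Agent.P011.H925.Full (GK)
open Vale.Agent.P011S (UH SU redNorm IsAnisotropicForm)

section grp

variable {G H : Type} [Group G] [Group H]

theorem bigFin_of_surj (φ : G →* H) (hφ : Function.Surjective φ) (h : BigFin G) : BigFin H := by
  intro N hN
  have h1 := h _ (hN.comap φ)
  rwa [Subgroup.index_comap_of_surjective _ hφ] at h1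

theorem mem_of_bigTop (h : BigTop G) (φ : G →* H) {N : Subgroup H} (hN : Big N) (x : G) :
    φ x ∈ N := by
  have h1 : x ∈ N.comap φ := by
    rw [h _ (hN.comap φ)]
    exact Subgroup.mem_top x
  exact h1

theorem bigTop_of_surj (φ : G →* H) (hφ : Function.Surjective φ) (h : BigTop G) : BigTop H := by
  intro N hN
  rw [eq_top_iff]
  intro y _
  obtain ⟨x, rfl⟩ := hφ y
  exact mem_of_bigTop h φ hN x

theorem bigTop_of_fin (h1 : BigFin G) (h2 : ∀ N : Subgroup G, N.index ≠ 0 → N = ⊤) : BigTop G :=
  fun N hN => h2 N (h1 N hN)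

end grp

/-- The fixed field of the involution. -/
def fixK (K : Type) [Field K] [StarRing K] : Subfield K where
  carrier := {x | star x = x}
  mul_mem' := fun {x y} hx hy => by
    change star (x * y) = x * y
    rw [star_mul', hx, hy]
  one_mem' := star_one K
  add_mem' := fun {x y} hx hy => by
    change star (x + y) = x + y
    rw [star_add, hx, hy]
  zero_mem' := star_zero K
  neg_mem' := fun {x} hx => by
    change star (-x) = -x
    rw [star_neg, hx]
  inv_mem' := fun x hx => by
    change star x⁻¹ = x⁻¹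
    rw [star_inv₀, hx]

/-- The big subgroups of a special unitary group have finite index. -/
theorem bigFin_GK (hM : MFNF) {K A Ω : Type} [Field K] [NumberField K] [StarRing K] [Ring A]
    [StarRing A] [Algebra K A] [StarModule K A] [Field Ω] [Algebra K Ω] {n : ℕ}
    (f : A →ₐ[K] Matrix (Fin n) (Fin n) Ω) (hK : ∃ x : K, star x ≠ x)
    (hc : Algebra.IsCentral K A) (hs : IsSimpleRing A) (hn : 3 ≤ n) (hr : finrank K A = n ^ 2)
    (ha : ∀ x : A, star x * x = 0 → x = 0) : BigFin (GK f) := by
  let _ : Algebra (fixK K) A := Algebra.compHom A (algebraMap (fixK K) K)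
  have h := @hM (fixK K) K A Ω _ _ _ _ _ _ _ _ _ (IsScalarTower.of_algebraMap_eq fun _ => rfl) _ _
    _ n f
    { fixed := fun x => ⟨fun hx => ⟨⟨x, hx⟩, rfl⟩, by
        rintro ⟨y, rfl⟩
        exact y.2⟩
      star_ne := hK
      central := hc
      simple := hs
      le := hn
      rank := hr
      aniso := ha }
  exact bigFin_of h.1 h.2

/-- The case of a division algebra. -/
theorem bigFin_SUD (hM : MFNF) {K D Ω : Type} [Field K] [NumberField K] [StarRing K]
    [DivisionRing D] [StarRing D] [Algebra K D] [StarModule K D] [Algebra.IsCentral K D] [Field Ω]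
    [Algebra K Ω] {n : ℕ} (f : D →ₐ[K] Matrix (Fin n) (Fin n) Ω) (hK : ∃ x : K, star x ≠ x)
    (hn : 3 ≤ n) (hr : finrank K D = n ^ 2) : BigFin (Vale.Agent.P011.One.SUD f) := by
  have h := bigFin_GK hM f hK inferInstance inferInstance hn hr fun x hx => by
    rcases mul_eq_zero.1 hx with h | h
    · exact star_eq_zero.1 h
    · exact h
  let φ : GK f →* Vale.Agent.P011.One.SUD f :=
    { toFun := fun x => ⟨Unitary.toUnits x.1, x.1.2.2, x.2⟩
      map_one' := Subtype.ext (map_one _)
      map_mul' := fun x y => Subtype.ext (map_mul _ _ _) }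
  refine bigFin_of_surj φ ?_ h
  rintro ⟨x, h1, h2⟩
  have h3 : star (x : D) * (x : D) = 1 := by
    rw [eq_inv_of_mul_eq_one_right h1, inv_mul_cancel₀ x.ne_zero]
  exact ⟨⟨⟨x, h3, h1⟩, h2⟩, Subtype.ext (Units.ext rfl)⟩

section tw

variable {D : Type} [DivisionRing D] [StarRing D] {m : ℕ}

/-- A hermitian matrix with its inverse. -/
structure Inv (H H' : Matrix (Fin m) (Fin m) D) : Prop where
  her : Hᴴ = H
  l : H' * H = 1
  r : H * H' = 1

/-- The matrix algebra with the involution adjoint to the form. -/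
def TW {H H' : Matrix (Fin m) (Fin m) D} (_ : Inv H H') : Type := Matrix (Fin m) (Fin m) D

variable {H H' : Matrix (Fin m) (Fin m) D} (h : Inv H H')

instance : Ring (TW h) := inferInstanceAs (Ring (Matrix (Fin m) (Fin m) D))

instance (K : Type) [Field K] [Algebra K D] : Algebra K (TW h) :=
  inferInstanceAs (Algebra K (Matrix (Fin m) (Fin m) D))

/-- The matrix of an element. -/
def toM (K : Type) [Field K] [Algebra K D] : TW h ≃ₐ[K] Matrix (Fin m) (Fin m) D := AlgEquiv.refl

/-- The matrix of an element. -/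
def vM : TW h ≃+* Matrix (Fin m) (Fin m) D := RingEquiv.refl _

include h in
theorem Inv.her' : H'ᴴ = H' := by
  have h1 : H'ᴴ * H = 1 := by
    have h2 := congrArg Matrix.conjTranspose h.r
    rwa [Matrix.conjTranspose_mul, h.her, Matrix.conjTranspose_one] at h2
  calc H'ᴴ = H'ᴴ * (H * H') := by rw [h.r, Matrix.mul_one]
    _ = H' := by rw [← Matrix.mul_assoc, h1, Matrix.one_mul]

instance : StarRing (TW h) where
  star x := (vM h).symm (H' * (vM h x)ᴴ * H)
  star_involutive x := by
    apply (vM h).injective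
    simp only [RingEquiv.apply_symm_apply, Matrix.conjTranspose_mul, h.her, h.her',
      Matrix.conjTranspose_conjTranspose]
    calc H' * (H * (vM h x * H')) * H = (H' * H) * vM h x * (H' * H) := by
          simp only [Matrix.mul_assoc]
      _ = vM h x := by rw [h.l, Matrix.one_mul, Matrix.mul_one]
  star_mul x y := by
    apply (vM h).injective
    simp only [RingEquiv.apply_symm_apply, map_mul, Matrix.conjTranspose_mul]
    calc H' * ((vM h y)ᴴ * (vM h x)ᴴ) * H = H' * (vM h y)ᴴ * (H * H') * (vM h x)ᴴ * H := by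
          rw [h.r]
          simp only [Matrix.mul_assoc, Matrix.one_mul]
      _ = _ := by simp only [Matrix.mul_assoc]
  star_add x y := by
    apply (vM h).injective
    simp only [RingEquiv.apply_symm_apply, map_add, Matrix.conjTranspose_add, Matrix.mul_add,
      Matrix.add_mul]

theorem vM_star (x : TW h) : vM h (star x) = H' * (vM h x)ᴴ * H := rfl

instance (K : Type) [Field K] [StarRing K] [Algebra K D] [StarModule K D] :
    StarModule K (TW h) where
  star_smul t x := by
    apply (vM h).injective
    change H' * (t • vM h x)ᴴ * H = star t • (H' * (vM h x)ᴴ * H)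
    rw [Matrix.conjTranspose_smul, Matrix.mul_smul, Matrix.smul_mul]

theorem unit_iff (x : TW h) : star x * x = 1 ↔ (vM h x)ᴴ * H * vM h x = H := by
  rw [← (vM h).injective.eq_iff, map_mul, vM_star, map_one]
  constructor
  · intro h1
    calc (vM h x)ᴴ * H * vM h x = (H * H') * (vM h x)ᴴ * H * vM h x := by
          rw [h.r, Matrix.one_mul]
      _ = H * (H' * (vM h x)ᴴ * H * vM h x) := by simp only [Matrix.mul_assoc]
      _ = H := by rw [h1, Matrix.mul_one]
  · intro h1
    calc H' * (vM h x)ᴴ * H * vM h x = H' * ((vM h x)ᴴ * H * vM h x) := by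
          simp only [Matrix.mul_assoc]
      _ = 1 := by rw [h1, h.l]

theorem aniso_TW (hH : IsAnisotropicForm H) (x : TW h) (hx : star x * x = 0) : x = 0 := by
  have h1 : (vM h x)ᴴ * H * vM h x = 0 := by
    have h2 := congrArg (fun y => H * vM h y) hx
    simp only [map_mul, vM_star, map_zero, Matrix.mul_zero, ← Matrix.mul_assoc, h.r,
      Matrix.one_mul] at h2
    exact h2
  apply (vM h).injective
  rw [map_zero]
  ext i j
  have h3 := hH.2 (fun l => vM h x l j) (by
    have h4 := congrFun (congrFun h1 j) j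
    rw [Matrix.mul_assoc, Matrix.mul_apply] at h4
    rw [Matrix.zero_apply] at h4
    rw [← h4]
    rfl)
  exact congrFun h3 i

variable {K F : Type} [Field K] [Algebra K D] [Field F] [Algebra K F] {p : ℕ}

/-- The splitting of the matrix algebra. -/
noncomputable def spl (f : D →ₐ[K] Matrix (Fin p) (Fin p) F) :
    TW h →ₐ[K] Matrix (Fin (m * p)) (Fin (m * p)) F :=
  ((Matrix.reindexAlgEquiv K F finProdFinEquiv).toAlgHom.comp
    ((Matrix.compAlgEquiv (Fin m) (Fin p) F K).toAlgHom.comp
      (AlgHom.mapMatrix f))).comp (toM h K).toAlgHom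

theorem det_spl (f : D →ₐ[K] Matrix (Fin p) (Fin p) F) (x : TW h) :
    (spl h f x).det = redNorm f (Fin m) (vM h x) := by
  exact Matrix.det_reindex_self (R := F) finProdFinEquiv
    (Matrix.compAlgEquiv (Fin m) (Fin p) F K (AlgHom.mapMatrix f (toM h K x)))

end tw

/-- An anisotropic form has an invertible matrix. -/
theorem exists_inv {K D : Type} [Field K] [DivisionRing D] [StarRing D] [Algebra K D]
    [FiniteDimensional K D] {m : ℕ} {H : Matrix (Fin m) (Fin m) D} (hH : IsAnisotropicForm H) :
    ∃ H', Inv H H' := by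
  have hinj : Function.Injective (LinearMap.mulLeft K H) := by
    rw [injective_iff_map_eq_zero]
    intro X hX
    rw [LinearMap.mulLeft_apply] at hX
    ext i j
    have h3 := hH.2 (fun l => X l j) (by
      have h4 : H *ᵥ (fun l => X l j) = 0 := by
        funext l
        exact congrFun (congrFun hX l) j
      rw [h4, dotProduct_zero])
    exact congrFun h3 i
  obtain ⟨H', h1⟩ := LinearMap.injective_iff_surjective.1 hinj 1
  rw [LinearMap.mulLeft_apply] at h1
  refine ⟨H', hH.1, hinj ?_, h1⟩
  rw [LinearMap.mulLeft_apply, LinearMap.mulLeft_apply, ← mul_assoc, h1, one_mul, mul_one]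

/-- The case of a hermitian form over a division algebra. -/
theorem bigFin_SU (hM : MFNF) {K D F : Type} [Field K] [NumberField K] [StarRing K]
    [DivisionRing D] [StarRing D] [Algebra K D] [StarModule K D] [FiniteDimensional K D]
    [Algebra.IsCentral K D] [Field F] [Algebra K F] (hK : ∃ x : K, star x ≠ x) {n : ℕ}
    (hdeg : finrank K D = n ^ 2) (f : D →ₐ[K] Matrix (Fin n) (Fin n) F) {m : ℕ}
    (hm : 3 ≤ m * n) (H : Matrix (Fin m) (Fin m) D) (hH : IsAnisotropicForm H) :
    BigFin (SU f H) := by
  obtain ⟨H', h⟩ := exists_inv (K := K) hH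
  have hm0 : Nonempty (Fin m) := by
    rcases Nat.eq_zero_or_pos m with rfl | h0
    · simp at hm
    · exact ⟨⟨0, h0⟩⟩
  have h1 := bigFin_GK hM (spl h f) hK
    (inferInstanceAs (Algebra.IsCentral K (Matrix (Fin m) (Fin m) D)))
    (inferInstanceAs (IsSimpleRing (Matrix (Fin m) (Fin m) D))) hm (by
      change finrank K (Matrix (Fin m) (Fin m) D) = _
      rw [Module.finrank_matrix, hdeg, Fintype.card_fin]
      ring) (aniso_TW h hH)
  let φ : GK (spl h f) →* SU f H :=
    { toFun := fun x => ⟨Units.map (vM h : TW h →* Matrix (Fin m) (Fin m) D) (Unitary.toUnits x.1),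
        (unit_iff h _).1 x.1.2.1, (det_spl h f _).symm.trans x.2⟩
      map_one' := Subtype.ext (Units.ext rfl)
      map_mul' := fun x y => Subtype.ext (Units.ext rfl) }
  refine bigFin_of_surj φ ?_ h1
  rintro ⟨x, h2, h3⟩
  have h4 : star ((vM h).symm x) * (vM h).symm x = 1 := (unit_iff h _).2 h2
  have h5 : (vM h).symm x * star ((vM h).symm x) = 1 := by
    have h6 : IsUnit ((vM h).symm x) := x.isUnit.map (vM h).symm
    obtain ⟨u, hu⟩ := h6
    rw [← hu] at h4 ⊢
    rw [Units.eq_inv_of_mul_eq_one_right h4, Units.mul_inv]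
  exact ⟨⟨⟨(vM h).symm x, h4, h5⟩, (det_spl h f _).trans h3⟩, Subtype.ext (Units.ext rfl)⟩

end Vale.Agent.P011N.E1
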