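import Vale.Agent.P011N.E1.Leaf0
import Vale.Agent.P011.D4.IF.Asm

/-!
Big subgroups of the automorphism group of a division octonion algebra.
-/

namespace Vale.Agent.P011N.E1

open Vale.Agent.P011N
open Vale.Agent.P011.MPQ Vale.Agent.P011.D4 Vale.Agent.P011.D4.Oct

theorem long_injective {F : Type} [Field F] (a b c : Fˣ) : Function.Injective (long a b c) := by
  intro s t h
  have h1 := congrArg (fun g : AutC a b c => (g.1 (⟨0, 1⟩ : Oct a b c)).snd) h
  change ((s : (Qt a b)ˣ) : Qt a b) * 1 = ((t : (Qt a b)ˣ) : Qt a b) * 1 at h1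
  rw [mul_one, mul_one] at h1
  exact Subtype.ext (Units.ext h1)

theorem aniso_of_div {F : Type} [Field F] {a b c : Fˣ} (hdiv : Division a b c) : Aniso a b := by
  intro x hx
  have h := hdiv (⟨x, 0⟩ : Oct a b c) (by
    rw [Oct.norm, hx]
    simp [nrd])
  exact congrArg Oct.fst h

/-- The automorphism group of a division octonion algebra has no proper big subgroup. -/
theorem bigTop_autC (hQ : MFQ) {k : Type} [Field k] [NumberField k] {a b c : kˣ}
    (hdiv : Division a b c) : BigTop (AutC a b c) := by
  intro N hN
  refine (Vale.Agent.P011.D4.IF.autC_simple hdiv N hN.1).resolve_left fun h0 => ?_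
  refine (hN.comap (long a b c)).not_le_center (hQ k a b (aniso_of_div hdiv)).2 fun x hx => ?_
  rw [h0, Subgroup.mem_comap, Subgroup.mem_bot, ← map_one (long a b c)] at hx
  rw [long_injective a b c hx]
  exact one_mem _

end Vale.Agent.P011N.E1
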