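import Vale.Agent.P011N.E1.Leaf0
import Vale.Agent.P011.Two2.Final

/-!
Big subgroups of the special unitary groups of rank at least two.
-/

open Module

namespace Vale.Agent.P011N.E1

open Vale.Agent.P011N
open Vale.Agent.P011S (UH SU redNorm IsAnisotropicForm)

/-- The special unitary groups of rank at least two over noncommutative division algebras have no
proper big subgroup. -/
theorem bigTop_SU (hM : MFNF) {K D F : Type} [Field K] [NumberField K] [StarRing K]
    [DivisionRing D] [StarRing D] [Algebra K D] [StarModule K D] [FiniteDimensional K D]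
    [Algebra.IsCentral K D] [Field F] [Algebra K F] (hK : ∃ x : K, star x ≠ x) {n : ℕ}
    (hn : 2 ≤ n) (hdeg : finrank K D = n ^ 2) (f : D →ₐ[K] Matrix (Fin n) (Fin n) F) {m : ℕ}
    (hm : 2 ≤ m) (H : Matrix (Fin m) (Fin m) D) (hH : IsAnisotropicForm H) :
    BigTop (SU f H) :=
  bigTop_of_fin (bigFin_SU hM hK hdeg f (by nlinarith) H hH) fun N hN =>
    Vale.Agent.P011.Two2.top_of_index hK hn hdeg f hm H hH N hN

end Vale.Agent.P011N.E1
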