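import Vale.Agent.P011N.E1.Bg
import Vale.Agent.P011N.E1.Leaf1
import Vale.Agent.P011.E6H.XBad
import Vale.Agent.P011.E6W.H7.Model

/-!
The intersection of the big subgroups of the outer group of type `E₆`.
-/

open Vale.Agent.P011N.E1 (Bg)

section part0

open NumberField

namespace Vale.Agent.P011.E6H

open Vale.Agent.P011.MPQ Vale.Agent.P011.D4 Vale.Agent.P011.E6
open scoped ComplexConjugate

/-- Every subgroup of finite index of `G` contains the elements of `G` which are close to the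
identity at the embeddings `w` with the property `S`. -/
def OpenAtB {F : Type} [Field F] {a b c : Fˣ} (S : (F →+* ℂ) → Prop)
    (G : Subgroup (Equiv.Perm (Alb a b c))) : Prop :=
  ∀ N : Subgroup G, Bg N → ∃ ε : ℝ, 0 < ε ∧
    ∀ h : G, (∀ w, S w → ∀ x, nm w (h.1 x - x) ≤ ε * nm w x) → h ∈ N

end Vale.Agent.P011.E6H

end part0

section part1

open NumberField

namespace Vale.Agent.P011.E6O

open Vale.Agent.P011.MPQ Vale.Agent.P011.D4 Vale.Agent.P011.D4.Oct Vale.Agent.P011.E6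
open Vale.Agent.P011.E6I (MQ toMQ)
open scoped ComplexConjugate

variable {k E : Type} [Field k] [Field E] [Algebra k E]

/-- The finite residual of the group, as a group of linear maps. -/
def ResB (ρ σ : E ≃ₐ[k] E) (lam : Eˣ) (g : Fin 3 → Eˣ) (a b c : kˣ) :
    Subgroup (AlbL E a b c ≃ₗ[E] AlbL E a b c) :=
  (sInf {N : Subgroup (GO ρ σ lam g a b c) | Bg N}).map (GO ρ σ lam g a b c).subtype

end Vale.Agent.P011.E6O

end part1

section part2

open NumberField

namespace Vale.Agent.P011.E6H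

open Vale.Agent.P011.D4 Vale.Agent.P011.E6 Vale.Agent.P011.E6O

variable {k E : Type} [Field k] [Field E] [Algebra k E] {ρ σ : E ≃ₐ[k] E} {lam : Eˣ}
  {g : Fin 3 → Eˣ} {a b c : kˣ}

/-- The statement on openness for the permutations from the statement for the linear maps. -/
theorem openAt_gpoB {S : (E →+* ℂ) → Prop}
    (h : ∀ N : Subgroup (GO ρ σ lam g a b c), Bg N → ∃ ε : ℝ, 0 < ε ∧
      ∀ x : GO ρ σ lam g a b c,
        (∀ w, S w → ∀ y, nm w (x.1 y - y) ≤ ε * nm w y) → x ∈ N) :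
    OpenAtB S (GPO ρ σ lam g a b c) := by
  intro N hN
  obtain ⟨ε, h0, h1⟩ := h (N.comap (toGPO (ρ := ρ) (σ := σ) (lam := lam) (g := g) (a := a)
    (b := b) (c := c))) (hN.comap _)
  refine ⟨ε, h0, fun x hx => ?_⟩
  obtain ⟨y, rfl⟩ := toGPO_surjective x
  exact h1 y hx

/-- The same for the group of the final statement. -/
theorem openAt_ofB {S : (E →+* ℂ) → Prop}
    (h : ∀ N : Subgroup (GO ρ σ lam g a b c), Bg N → ∃ ε : ℝ, 0 < ε ∧
      ∀ x : GO ρ σ lam g a b c,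
        (∀ w, S w → ∀ y, nm w (x.1 y - y) ≤ ε * nm w y) → x ∈ N) :
    OpenAtB S (GHer σ g a b c ⊓ GPh ρ lam a b c) := by
  rw [gpo_eq]
  exact openAt_gpoB h

end Vale.Agent.P011.E6H

end part2

section part3

open NumberField

namespace Vale.Agent.P011.E6H

open Vale.Agent.P011.D4 Vale.Agent.P011.E6
open scoped ComplexConjugate

variable {k E : Type} [Field k] [Field E] [Algebra k E] {ρ σ : E ≃ₐ[k] E} {lam : Eˣ}
  {g : Fin 3 → Eˣ} {a b c : kˣ}

/-- The statement on openness for the group of the final statement. -/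
theorem openAt_badB
    (h : ∀ N : Subgroup (E6O.GO ρ σ lam g a b c), Bg N → ∃ ε : ℝ, 0 < ε ∧
      ∀ x : E6O.GO ρ σ lam g a b c,
        (∀ w, Inert σ w ∧ ¬ (DefC b c w ∧ DefG g w) →
          ∀ y, nm w (x.1 y - y) ≤ ε * nm w y) → x ∈ N) :
    OpenAtB (Bad σ b c g) (GHer σ g a b c ⊓ GPh ρ lam a b c) := by
  refine openAt_ofB fun N hN => ?_
  obtain ⟨ε, h0, h1⟩ := h N hN
  exact ⟨ε, h0, fun x hx => h1 x fun w hw => hx w (bad_iff.mpr hw)⟩

end Vale.Agent.P011.E6H

end part3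

section part4

open NumberField Matrix

namespace Vale.Agent.P011.E6O

open Vale.Agent.P011.MPQ Vale.Agent.P011.D4 Vale.Agent.P011.D4.Oct Vale.Agent.P011.E6
open Vale.Agent.P011.E6.Alb

/-- The finite residual: the intersection of all subgroups of finite index. -/
def fresB (G : Type) [Group G] : Subgroup G := sInf {N : Subgroup G | Bg N}

section grp

variable {G H : Type} [Group G] [Group H]

theorem mem_fresB {g : G} : g ∈ fresB G ↔ ∀ N : Subgroup G, Bg N → g ∈ N := by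
  rw [fresB, Subgroup.mem_sInf]
  rfl

theorem index_comap_neB {f : G →* H} {N : Subgroup H} (hN : Bg N) :
    Bg (N.comap f) := hN.comap f

theorem map_fres_leB (f : G →* H) : fresB G ≤ (fresB H).comap f := by
  intro g hg
  rw [Subgroup.mem_comap, mem_fresB]
  intro N hN
  exact mem_fresB.mp hg _ (index_comap_neB hN)

theorem fres_equivB (e : G ≃* H) {g : G} : g ∈ fresB G ↔ e g ∈ fresB H := by
  constructor
  · intro h
    exact map_fres_leB e.toMonoidHom h
  · intro h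
    have h1 : e.symm (e g) ∈ fresB G := map_fres_leB e.symm.toMonoidHom h
    rwa [MulEquiv.symm_apply_apply] at h1

end grp

section res

variable {k E : Type} [Field k] [Field E] [Algebra k E]

variable {ρ σ : E ≃ₐ[k] E} {lam : Eˣ} {γ : Fin 3 → Eˣ} {a b c : kˣ}

theorem Res_eqB : ResB ρ σ lam γ a b c =
    (fresB (GO ρ σ lam γ a b c)).map (GO ρ σ lam γ a b c).subtype := rfl

theorem mem_Res'B {φ : AlbL E a b c ≃ₗ[E] AlbL E a b c} (hφ : φ ∈ GO ρ σ lam γ a b c) :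
    φ ∈ ResB ρ σ lam γ a b c ↔ (⟨φ, hφ⟩ : GO ρ σ lam γ a b c) ∈ fresB (GO ρ σ lam γ a b c) := by
  rw [Res_eqB, Subgroup.mem_map]
  constructor
  · rintro ⟨x, hx, hxφ⟩
    have h1 : x = ⟨φ, hφ⟩ := Subtype.ext hxφ
    rwa [← h1]
  · intro h
    exact ⟨_, h, rfl⟩

theorem Res_leB : ResB ρ σ lam γ a b c ≤ GO ρ σ lam γ a b c := by
  rintro φ ⟨x, -, rfl⟩
  exact x.2

variable [NeZero (2 : k)] [NeZero (2 : E)]

end res

section main

variable {k E : Type} [Field k] [NumberField k] [Field E] [NumberField E] [Algebra k E]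
  {ρ σ : E ≃ₐ[k] E} {lam : Eˣ} {γ : Fin 3 → Eˣ} {a b c : kˣ}

/-- The automorphisms of the octonion algebra belong to the finite residual. -/
theorem autO_memB (hdiv : Division a b c) (f : AutC a b c) :
    autO ρ σ lam γ a b c f ∈ fresB (GO ρ σ lam γ a b c) := by
  rw [mem_fresB]
  intro N hN
  exact Vale.Agent.P011N.E1.mem_of_bigTop (Vale.Agent.P011N.E1.bigTop_autC hN.2.2.1 hdiv)
    (autO ρ σ lam γ a b c) hN.1 f

/-- The automorphisms of the octonion algebra belong to the finite residual. -/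
theorem aut_Res'B (hdiv : Division a b c) (f : AutC a b c) {φ : AlbL E a b c ≃ₗ[E] AlbL E a b c}
    (hφ : ∀ x : Alb a b c, φ (aup E x) = aup E (Alb.omapA f.1 x)) :
    φ ∈ ResB ρ σ lam γ a b c := by
  have h : φ = (autO ρ σ lam γ a b c f).1 := Rl.alb_unique' fun x => by rw [hφ, autO_aup]
  rw [h]
  exact ⟨_, autO_memB hdiv f, rfl⟩

theorem conj_ResB {a' b' c' : kˣ} {Ψ : AlbL E a' b' c' ≃ₗ[E] AlbL E a b c}
    (h : ∀ φ, φ ∈ GO ρ σ lam γ a' b' c' ↔ E6I.conjE Ψ φ ∈ GO ρ σ lam γ a b c)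
    {φ : AlbL E a' b' c' ≃ₗ[E] AlbL E a' b' c'} :
    φ ∈ ResB ρ σ lam γ a' b' c' ↔ E6I.conjE Ψ φ ∈ ResB ρ σ lam γ a b c := by
  constructor
  · intro h3
    have h4 := Res_leB h3
    rw [mem_Res'B h4, fres_equivB (conjO h)] at h3
    rw [mem_Res'B ((h φ).mp h4)]
    exact h3
  · intro h3
    have h4 := (h φ).mpr (Res_leB h3)
    rw [mem_Res'B ((h φ).mp h4)] at h3
    rw [mem_Res'B h4, fres_equivB (conjO h)]
    exact h3

/-- Change of the quaternion subalgebra. -/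
theorem trip_Res'B {a' b' c' : kˣ} {i j l : Oct a b c} (ht : Trip a' b' c' i j l)
    {Ψ : AlbL E a' b' c' ≃ₗ[E] AlbL E a b c}
    (hΨ : ∀ x, Ψ x = Alb.omapA (emb (oup E i) (oup E j) (oup E l)) x)
    {φ : AlbL E a' b' c' ≃ₗ[E] AlbL E a' b' c'} :
    (φ ∈ GO ρ σ lam γ a' b' c' ↔ (Ψ.symm.trans φ).trans Ψ ∈ GO ρ σ lam γ a b c) ∧
      (φ ∈ ResB ρ σ lam γ a' b' c' ↔ (Ψ.symm.trans φ).trans Ψ ∈ ResB ρ σ lam γ a b c) := by
  obtain rfl : Ψ = tripA E ht := by
    apply LinearEquiv.ext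
    intro x
    rw [hΨ, tripA_apply]
  obtain ⟨h1, h2, h3⟩ := trip_str (ρ := ρ) (σ := σ) (lam := lam) (γ := γ) ht
  exact ⟨conj_mem_GO h1 h2 h3 φ, conj_ResB (conj_mem_GO h1 h2 h3)⟩

end main

end Vale.Agent.P011.E6O

end part4

section part5

open NumberField

namespace Vale.Agent.P011.E6W.H7

open Vale.Agent.P011.MPQ Vale.Agent.P011.D4 Vale.Agent.P011.D4.Oct Vale.Agent.P011.E6
  Vale.Agent.P011.E6O Vale.Agent.P011.E6H

section nm

variable {F : Type} [Field F] {a b c : Fˣ}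

end nm

section bound

variable {E : Type} [Field E] [NumberField E] {a b c a' b' c' : Eˣ}

end bound

section near

variable {E : Type} [Field E]

variable [NumberField E] {a b c a' b' c' : Eˣ}

end near

section model

variable {k E : Type} [Field k] [NumberField k] [Field E] [NumberField E] [Algebra k E]
  {ρ σ : E ≃ₐ[k] E}
  {lam : Eˣ} {g : Fin 3 → Eˣ} {a b c : kˣ}

/-- Change of the quaternion subalgebra, for the elements close to the identity. -/
theorem near_of_modelB {a' b' c' : kˣ} {i j l : Oct a b c} (ht : Trip a' b' c' i j l)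
    (h : ∃ t : ℝ, 0 < t ∧ ∀ φ ∈ GO ρ σ lam g a' b' c', NearA t φ →
      φ ∈ ResB ρ σ lam g a' b' c') :
    ∃ t : ℝ, 0 < t ∧ ∀ φ ∈ GO ρ σ lam g a b c, NearA t φ → φ ∈ ResB ρ σ lam g a b c := by
  obtain ⟨t, ht0, h1⟩ := h
  let Ψ : AlbL E a' b' c' ≃ₗ[E] AlbL E a b c := tripA E ht
  obtain ⟨C, hC0, hC⟩ := exists_nearA Ψ
  refine ⟨t / C, div_pos ht0 hC0, fun φ hφ hn => ?_⟩
  obtain ⟨φ', hφ'⟩ : ∃ φ', φ' = (Ψ.trans φ).trans Ψ.symm := ⟨_, rfl⟩
  have e : (Ψ.symm.trans φ').trans Ψ = φ := by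
    apply LinearEquiv.ext
    intro x
    rw [hφ']
    change Ψ (Ψ.symm (φ (Ψ (Ψ.symm x)))) = φ x
    rw [LinearEquiv.apply_symm_apply, LinearEquiv.apply_symm_apply]
  obtain ⟨e1, e2⟩ := trip_Res'B (ρ := ρ) (σ := σ) (lam := lam) (γ := g) ht
    (Ψ := Ψ) (tripA_apply ht) (φ := φ')
  rw [e] at e1 e2
  refine e2.1 (h1 φ' (e1.2 hφ) ?_)
  have h2 := hC φ' (t / C) (div_nonneg ht0.le hC0.le) (by rwa [e])
  rwa [mul_div_cancel₀ _ hC0.ne'] at h2

omit [NumberField k] [NumberField E] in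
theorem mem_of_mem_resB {N : Subgroup (GO ρ σ lam g a b c)} (hN : Bg N)
    {x : GO ρ σ lam g a b c} (hx : x.1 ∈ ResB ρ σ lam g a b c) : x ∈ N := by
  obtain ⟨y, hy, hyx⟩ := hx
  have h2 : y = x := Subtype.ext hyx
  rw [← h2]
  exact Subgroup.mem_sInf.mp hy N hN

omit [NumberField k] [NumberField E] in
/-- From the finite residual to the final statement. -/
theorem openAt_of_nearB (h : ∃ t : ℝ, 0 < t ∧ ∀ φ ∈ GO ρ σ lam g a b c, NearA t φ →
      φ ∈ ResB ρ σ lam g a b c) :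
    OpenAtB (fun _ => True) (E6H.GHer σ g a b c ⊓ E6H.GPh ρ lam a b c) := by
  obtain ⟨t, ht, h1⟩ := h
  exact openAt_ofB fun N hN => ⟨t, ht, fun x hx =>
    mem_of_mem_resB hN (h1 x.1 x.2 fun w y => hx w trivial y)⟩

end model

end Vale.Agent.P011.E6W.H7

end part5
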