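import Vale.Agent.P011N.E1.Res
import Vale.Agent.P011.E6W.H7.Fin0

/-!
Big subgroups, when the octonion algebra remains a division algebra: openness.
-/

open Vale.Agent.P011N.E1 (Bg)

section part0

open NumberField Matrix

namespace Vale.Agent.P011.E6W

open Vale.Agent.P011.MPQ hiding mat
open Vale.Agent.P011.D4 Vale.Agent.P011.D4.Oct Vale.Agent.P011.E6
open Vale.Agent.P011.E6O (GO ResB InD InD0 um)
open Vale.Agent.P011.E6I (MQ toMQ InVs)
open Vale.Agent.P011.E6H (nm qnm)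
open Vale.Agent.P011.E6W.H183 (adjM)

variable {k E : Type} [Field k] [Field E] [Algebra k E]

/-- (A) The special unitary group of `D ⊗ Q` is contained in the finite residual. -/
def SqResB (ρ σ : E ≃ₐ[k] E) (lam : Eˣ) (g : Fin 3 → Eˣ) (a b c : kˣ) : Prop :=
  ∀ m : (MQ E a b)ˣ, InD ρ lam (m : MQ E a b) → adjM σ g (m : MQ E a b) * (m : MQ E a b) = 1 →
    nu (m : MQ E a b) = 1 → ∀ h : AlbL E a b c ≃ₗ[E] AlbL E a b c, (∀ x, h x = Alb.act m 1 x) →
      h ∈ ResB ρ σ lam g a b c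

/-- (B) The pointwise stabilizers of the frames close to the standard frame are contained in the
finite residual. -/
def FrResB (ρ σ : E ≃ₐ[k] E) (lam : Eˣ) (g : Fin 3 → Eˣ) (a b c : kˣ)
    (z₀ v₀ : Matrix (Fin 3) (Fin 3) E) : Prop :=
  ∃ t : ℝ, 0 < t ∧ ∀ (z : MQ E a b) (v : AlbL E a b c) (p₂ p₁ p₀ : k),
    Frame ρ σ lam g z v p₂ p₁ p₀ → NearM t (toMQ z₀) z → NearV t (Alb.ofF v₀) v →
    ∀ h ∈ GO ρ σ lam g a b c, FixFr z v h → h ∈ ResB ρ σ lam g a b c

/-- (C) The finite residual is open at the archimedean places. -/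
def OpenResB (ρ σ : E ≃ₐ[k] E) (lam : Eˣ) (g : Fin 3 → Eˣ) (a b c : kˣ) : Prop :=
  ∃ t : ℝ, 0 < t ∧ ∀ h ∈ GO ρ σ lam g a b c, NearL t 1 h → h ∈ ResB ρ σ lam g a b c

end Vale.Agent.P011.E6W

end part0

section part1

open Matrix Module

set_option linter.unusedSectionVars false

namespace Vale.Agent.P011.E6W.H183

open Vale.Agent.P011.MPQ hiding mat
open Vale.Agent.P011.D4 Vale.Agent.P011.D4.Oct Vale.Agent.P011.E6
open Vale.Agent.P011.E6O
open Vale.Agent.P011.E6I (MQ toMQ toMQ_apply u0)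

variable {k E : Type} [Field k] [NumberField k] [Field E] [NumberField E] [Algebra k E]
  {ρ σ : E ≃ₐ[k] E} {lam : Eˣ} {g : Fin 3 → Eˣ} {th s : E} {kap a b c : kˣ}

section hom

variable (W : WH ρ σ lam g th s kap a b c)
  (f : BW W →ₐ[KW W] Matrix (Fin 6) (Fin 6) (AlgebraicClosure E))
  (hf : ∀ x, (f x).det = algebraMap E (AlgebraicClosure E) (nu (toW W x)))

end hom

/-- **The special unitary group of `D ⊗ Q` is contained in the subgroups of finite index**, if the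
algebra does not remain a division algebra at any finite place which splits. -/
theorem sq_memB (W : WH ρ σ lam g th s kap a b c) (hMP : SixAt W)
    (hT : One.Tdiv k (KW W) (BW W) = ∅) (N : Subgroup (GO ρ σ lam g a b c)) (hi : Bg N)
    {m : (MQ E a b)ˣ} (hm : InD ρ lam (m : MQ E a b)) (hu : IsUn σ g 1 (m : MQ E a b))
    (hn : nu (m : MQ E a b) = 1) : (⟨_, act_mem_GO W hm hu hn⟩ : GO ρ σ lam g a b c) ∈ N := by
  obtain ⟨f, hf⟩ : ∃ f : BW W →ₐ[KW W] Matrix (Fin 6) (Fin 6) (AlgebraicClosure E),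
      ∀ x, (f x).det = algebraMap E (AlgebraicClosure E) (nu (toW W x)) := exists_spB W.HI
  have hS := setW W
  have hdeg : finrank (KW W) (BW W) = 6 ^ 2 := (finrank_BB W.HI).trans (by norm_num)
  have hKf : FiniteDimensional k (KW W) := Module.finite_of_finrank_pos (by rw [hS.rank]; norm_num)
  have hDf : FiniteDimensional k (BW W) := Module.Finite.trans (KW W) (BW W)
  have hSM : StarModule (KW W) (BW W) := ⟨hS.star_smul⟩
  have hN1 : (N.comap (homW W f hf)).FiniteIndex :=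
    ⟨Vale.Agent.P011N.E1.bigFin_SUD hi.2.1 f ⟨thK W, fun h => W.th_ne (by
      have h1 := hS.star_s
      rw [h] at h1
      have h2 : (2 : KW W) * thK W = 0 := by linear_combination h1
      have h3 := (mul_eq_zero.1 h2).resolve_left two_ne_zero
      rw [← algebraMap_thK W, h3, map_zero])⟩ (by norm_num) hdeg _
      (hi.1.comap (homW W f hf))⟩
  have hN2 : (N.comap (homW W f hf)).normalCore.FiniteIndex := inferInstance
  obtain ⟨S, hSf, hpf⟩ := hMP _ f _ (finBasis k (BW W)) (N.comap (homW W f hf)).normalCore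
    hN2.index_ne_zero
  obtain ⟨η, -, h⟩ := One.pf_tdiv hS (by norm_num) hdeg f (finBasis k (BW W)) One.im_sub
    One.one_im (fun _ ha _ hb => One.mul_im ha hb) hN2.index_ne_zero
    (fun x hx => One.pow_im (fun g => Subgroup.pow_index_mem _ g) hx) hSf hpf
  have hinv : InD ρ lam ((m⁻¹ : (MQ E a b)ˣ) : MQ E a b) := hm.inv
  -- the element of the algebra
  obtain ⟨x, hx⟩ : ∃ x : BW W, toW W x = (m : MQ E a b) := ⟨ofW W hm, rfl⟩
  have hx0 : x ≠ 0 := by
    intro h0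
    rw [h0, map_zero] at hx
    exact m.ne_zero hx.symm
  have hxs : x * star x = 1 := by
    have h1 : star x * x = 1 := by
      apply toW_injective W
      rw [map_mul, toW_star, hx, map_one]
      exact isUn_iff.mp hu
    rw [eq_inv_of_mul_eq_one_left h1, mul_inv_cancel₀ hx0]
  have hxd : (f x).det = 1 := by rw [hf, hx, hn, map_one]
  obtain ⟨u, hu', hux⟩ := h x ⟨hxs, hxd⟩ (by
    rw [hT]
    intro p hp
    exact absurd hp (Set.notMem_empty p))
  have h2 : homW W f hf u ∈ N :=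
    Subgroup.mem_comap.mp ((Subgroup.normalCore_le (N.comap (homW W f hf))) hu')
  have h3 : homW W f hf u = ⟨_, act_mem_GO W hm hu hn⟩ := by
    apply Subtype.ext
    rw [homW_apply]
    congr 1
    apply Units.ext
    change toW W ((u : (BW W)ˣ) : BW W) = m
    rw [hux, hx]
  rwa [h3] at h2

/-- The special unitary group of `D ⊗ Q` is contained in the finite residual. -/
theorem sq_resB (W : WH ρ σ lam g th s kap a b c) (hMP : SixAt W)
    (hT : One.Tdiv k (KW W) (BW W) = ∅) {m : (MQ E a b)ˣ} (hm : InD ρ lam (m : MQ E a b))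
    (hu : IsUn σ g 1 (m : MQ E a b)) (hn : nu (m : MQ E a b) = 1)
    {φ : AlbL E a b c ≃ₗ[E] AlbL E a b c} (hφ : ∀ x, φ x = Alb.act m 1 x) :
    φ ∈ E6O.ResB ρ σ lam g a b c := by
  have h : φ = H64.actL two_ne_zero m 1 := by
    apply LinearEquiv.ext
    intro x
    rw [hφ, H64.actL_apply, Units.val_one]
  refine ⟨⟨_, act_mem_GO W hm hu hn⟩, ?_, h.symm⟩
  rw [SetLike.mem_coe, Subgroup.mem_sInf]
  intro N hN
  exact sq_memB W hMP hT N hN hm hu hn

section qi

variable {F : Type} [Field F] (α β : Fˣ)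

end qi

end Vale.Agent.P011.E6W.H183

end part1

section part2

open Matrix NumberField

namespace Vale.Agent.P011.E6W.H183

open Vale.Agent.P011.MPQ hiding mat
open Vale.Agent.P011.D4 Vale.Agent.P011.D4.Oct Vale.Agent.P011.E6
open Vale.Agent.P011.E6O

variable {k E : Type} [Field k] [NumberField k] [Field E] [NumberField E] [Algebra k E]
  {ρ σ : E ≃ₐ[k] E} {lam : Eˣ} {g : Fin 3 → Eˣ} {th s : E} {kap a b c : kˣ}

/-- **The block (A).** -/
theorem sqResB (W : WH ρ σ lam g th s kap a b c) (hMP : SixAt W)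
    (hT : One.Tdiv k (KW W) (BW W) = ∅) : E6W.SqResB ρ σ lam g a b c := by
  intro m hm hu hn h hh
  exact sq_resB W hMP hT hm (isUn_iff.mpr hu) hn hh

end Vale.Agent.P011.E6W.H183

end part2

section part3

open Module

set_option linter.unusedSectionVars false

namespace Vale.Agent.P011.E6W.H619

open Vale.Agent.P011.MPQ hiding mat
open Vale.Agent.P011.D4 Vale.Agent.P011.D4.Oct Vale.Agent.P011.E6 Alb
open Vale.Agent.P011.E6O
open Vale.Agent.P011.E6I (MQ toMQ toMQ_apply toMQ_mul toMQ_one InVs cub_of_inV)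
open Vale.Agent.P011.E6I.Gn (Tm Tm_apply Tm_mul Tm_self Tm_inj Tm_cancel Tm_sq Tm_cube inV_ext
  inV_add inV_smul inV_adj inV_cross mat_mul_adj mat_adj_mul)
open Vale.Agent.P011.E6W.H183
open Vale.Agent.P011.One (Cen mem_cen exists_qhom)
open Matrix

section cen

variable {K D : Type} [Field K] [DivisionRing D] [Algebra K D] [Algebra.IsCentral K D]
  [FiniteDimensional K D]

end cen

section exact

variable {k E : Type} [Field k] [NumberField k] [Field E] [NumberField E] [Algebra k E]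
  {ρ σ : E ≃ₐ[k] E} {lam : Eˣ} {g : Fin 3 → Eˣ} {th s : E} {kap a b c : kˣ}
  {W : WH ρ σ lam g th s kap a b c}

/-- **The elements of the group with a frame.** -/
theorem mem_of_frameB (W : WH ρ σ lam g th s kap a b c) (hSq : SqResB ρ σ lam g a b c)
    {h : AlbL E a b c ≃ₗ[E] AlbL E a b c} (hh : h ∈ GO ρ σ lam g a b c)
    {U : Submodule E (AlbL E a b c)} {v x : AlbL E a b c} (D : Frs ρ σ lam g U v x)
    (hV : ∀ y ∈ U, InVs (h y)) (hD : InD ρ lam (Tm v x)) (hs : adjM σ g (Tm v x) = Tm v x)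
    {m0 : (MQ E a b)ˣ} (hm0 : InD ρ lam (m0 : MQ E a b))
    (hm : (m0 : MQ E a b) * Tm v x = Tm (h v) (h x) * (m0 : MQ E a b))
    (hsgn : ∀ w ∈ U, act m0 1 v = h w → ∀ t p : Fin 3 → k,
      Tm v x ^ 3 = ez (Tm v x) (fun i => algebraMap k E (p i)) →
      MM σ g v (m0 : MQ E a b) (Tm v w) = ez (Tm v x) (fun i => algebraMap k E (t i)) →
      t ≠ 0 ∧ ∀ (τ : k →+* ℝ) (ζ : ℝ), ζ ^ 3 = τ (p 2) * ζ ^ 2 + τ (p 1) * ζ + τ (p 0) →
        0 < τ (t 0) + τ (t 1) * ζ + τ (t 2) * ζ ^ 2)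
    (hB : ∀ d ∈ GO ρ σ lam g a b c, (∀ y ∈ U, d y = y) → d ∈ ResB ρ σ lam g a b c) :
    h ∈ ResB ρ σ lam g a b c := by
  obtain ⟨hh1, hh2, hh3⟩ := hh
  have hpol : ∀ y, h (H183.pol σ g y) = H183.pol σ g (h y) := fun y => map_pol W.rel.σ2 hh1 hh3 y
  have D' := D.toFr.map hh1 hV
  have hz := D.toFr.herm
  -- the cubic relation over `k`
  obtain ⟨P2, P1, P0, hP⟩ : ∃ P2 P1 P0 : E, Tm v x ^ 3 = P2 • Tm v x ^ 2 + P1 • Tm v x +
      P0 • (1 : MQ E a b) := ⟨_, _, _, D.cube⟩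
  obtain ⟨⟨f2, f1, f0⟩, g2, g1, g0⟩ := coef_fix W.rel hD hs hP D.ind
  obtain ⟨p2, hp2⟩ := exists_kW W f2 g2
  obtain ⟨p1, hp1⟩ := exists_kW W f1 g1
  obtain ⟨p0, hp0⟩ := exists_kW W f0 g0
  obtain ⟨p, hpe⟩ : ∃ p : Fin 3 → k, p = ![p0, p1, p2] := ⟨_, rfl⟩
  have hp : Tm v x ^ 3 = ez (Tm v x) (fun i => algebraMap k E (p i)) := by
    rw [hP, ez, hpe]
    change _ = algebraMap k E p0 • 1 + algebraMap k E p1 • Tm v x + algebraMap k E p2 • Tm v x ^ 2
    rw [hp0, hp1, hp2]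
    abel
  have hk : ∀ t : Fin 3 → k, ez (Tm v x) (fun i => algebraMap k E (t i)) = 0 → t = 0 := by
    intro t ht
    obtain ⟨e0, e1, e2⟩ := D.ind _ _ _ ht
    funext i
    fin_cases i
    · exact (map_eq_zero _).1 e0
    · exact (map_eq_zero _).1 e1
    · exact (map_eq_zero _).1 e2
  obtain ⟨F, _, _, _, ι, x0, H, hx0, -⟩ := exists_frW (W := W) hD hs D.hv D.nv hz hp hk
  -- the image frame
  have hpx : x0 ^ 3 = ez x0 p := by
    apply ι.toRingHom.injective
    apply toW_injective W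
    change toW W (ι (x0 ^ 3)) = toW W (ι (ez x0 p))
    rw [toW_ez, map_pow, map_pow, hx0, hp]
  have hcub := H.cub hpx
  rw [hx0] at hcub
  have hrel' := D.toFr.cube_map hh1 hV hcub.rel
  have hcub' : Cub (Tm (h v) (h x)) (algebraMap k E (p 2)) (algebraMap k E (p 1))
      (algebraMap k E (p 0)) := by
    refine ⟨hrel', fun t ht => ?_⟩
    obtain ⟨e0, e1, e2⟩ := D'.ind _ _ _ ht
    funext i
    fin_cases i
    · exact e0
    · exact e1
    · exact e2
  have hconj : ∀ t : Fin 3 → E, ez (Tm (h v) (h x)) t =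
      (m0 : MQ E a b) * ez (Tm v x) t * ((m0⁻¹ : (MQ E a b)ˣ) : MQ E a b) := by
    intro t
    have e1 : (m0 : MQ E a b) * Tm v x ^ 2 = Tm (h v) (h x) ^ 2 * (m0 : MQ E a b) := by
      rw [pow_two, pow_two, ← Matrix.mul_assoc, hm, Matrix.mul_assoc, hm, Matrix.mul_assoc]
    have e2 : (m0 : MQ E a b) * ez (Tm v x) t = ez (Tm (h v) (h x)) t * (m0 : MQ E a b) := by
      rw [ez, ez, Matrix.mul_add, Matrix.mul_add, Matrix.add_mul, Matrix.add_mul,
        Matrix.mul_smul, Matrix.mul_smul, Matrix.mul_smul, Matrix.smul_mul, Matrix.smul_mul,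
        Matrix.smul_mul, e1, hm, Matrix.mul_one, Matrix.one_mul]
    rw [e2, Matrix.mul_assoc, Units.mul_inv, Matrix.mul_one]
  have hu' : IsUnit (ez (Tm (h v) (h x)) ![-algebraMap k E (p 1), -(2 * algebraMap k E (p 2)),
      3]) := by
    rw [hconj]
    have h1 := H.unit p
    rw [hx0] at h1
    exact (m0.isUnit.mul h1).mul (m0⁻¹).isUnit
  -- the element `w`
  have hzy : Tm (h v) (h x) * mat (act m0 1 v) = mat (act m0 1 v) * (Tm (h v) (h x))ᴴ := by
    rw [E6.mat_act]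
    calc _ = (Tm (h v) (h x) * (m0 : MQ E a b)) * mat v * (m0 : MQ E a b)ᴴ := by
          simp only [Matrix.mul_assoc]
      _ = (m0 : MQ E a b) * (Tm v x * mat v) * (m0 : MQ E a b)ᴴ := by
          rw [← hm]
          simp only [Matrix.mul_assoc]
      _ = (m0 : MQ E a b) * mat v * ((m0 : MQ E a b) * Tm v x)ᴴ := by
          rw [hz, Matrix.conjTranspose_mul]
          simp only [Matrix.mul_assoc]
      _ = _ := by
          rw [hm, Matrix.conjTranspose_mul]
          simp only [Matrix.mul_assoc]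
  have hiy : InVs (act m0 1 v) := E6I.Gn.inV_act D.hv _ _
  obtain ⟨t, ht⟩ := vz D'.hv D'.nv D'.herm hcub' hu' hiy hzy
  obtain ⟨w, hw⟩ : ∃ w, w = t 0 • v + t 1 • x + t 2 • sqv v x := ⟨_, rfl⟩
  have hwU : w ∈ U := by
    rw [hw]
    exact D.comb_mem _ _ _
  have hact : act m0 1 v = h w := by
    refine inV_ext hiy (hV _ hwU) ?_
    rw [ht, ← Tm_mul D'.hv D'.nv (h w), hw, D.toFr.comb_map hh1 hV]
    rfl
  have hlD := D.psi_l hh1 hV hh2 hm0 hm hwU hact
  have hs' : adjM σ g (Tm (h v) (h x)) = Tm (h v) (h x) :=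
    D.adjM_map W.rel.σg hh1 hV hpol hs
  obtain ⟨hSc, hSn⟩ := D.key (H64.aniso_of_division W.hdiv) W.rel.σg hh1 hV hpol hs hs' hm hwU hact
  -- the elements of the algebra
  have hmS : InD ρ lam (adjM σ g (m0 : MQ E a b)) := inD_adjM W.rel hm0
  have hSD : InD ρ lam (adjM σ g (m0 : MQ E a b) * (m0 : MQ E a b)) := hmS.mul hm0
  obtain ⟨M0, hM0⟩ : ∃ M0 : BW W, toW W M0 = (m0 : MQ E a b) := ⟨ofW W hm0, rfl⟩
  obtain ⟨l, hl⟩ : ∃ l : BW W, toW W l = Tm v w := ⟨ofW W hlD, rfl⟩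
  have hSt : toW W (star M0 * M0) = adjM σ g (m0 : MQ E a b) * (m0 : MQ E a b) := by
    rw [map_mul, toW_star, hM0]
  have hSm : star M0 * M0 ∈ Cen ι := by
    rw [H.mem_iff, hSt, hx0]
    exact hSc
  have hSs : star (star M0 * M0) = star M0 * M0 := by rw [star_mul, star_star]
  -- the element `l`
  obtain ⟨d0, d1, d2, hd⟩ := D.span hwU
  have hle : Tm v w = ez (toW W (ι x0)) ![d0, d1, d2] := by
    rw [hd, hx0]
    rfl
  obtain ⟨pl, rl, hpr⟩ := H.desc (by rw [← hle]; exact hlD)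
  have hl2 : l = ι (ez x0 pl) + algebraMap (KW W) (BW W) (thK W) * ι (ez x0 rl) := by
    apply toW_injective W
    rw [hl, hle, map_add, map_mul, toW_ez, toW_ez, toW_algebraMap, smul_mul_assoc,
      one_mul, algebraMap_thK, ← ez_smul, ← ez_add]
    congr 1
    funext i
    exact hpr i
  have hB' := H.bar
  -- the norm of `S`
  have hn : (star M0 * M0) * barW W v (star M0 * M0) = l * star l := by
    apply toW_injective W
    rw [map_mul, map_mul (toW W) l, H.toW_bar hSm, toW_star, hSt, hl]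
    apply H619.mat_cancel D.hv D.nv
    rw [Matrix.mul_assoc, barM_mul D.hv D.nv, ← Matrix.mul_assoc]
    exact hSn
  -- the trace of `S`
  have hkap : algebraMap k F kap ≠ 0 := (map_ne_zero _).2 kap.ne_zero
  obtain ⟨q, r, hqr⟩ := hB'.tr _ hSm
  have hbs : star (barW W v (star M0 * M0)) = barW W v (star M0 * M0) := by
    rw [← hB'.st _ hSm, hSs]
  have hq := hB'.of_sym hkap hqr (by rw [star_add, hSs, hbs])
  have hls : l + star l = ι (2 * ez x0 pl) := by
    rw [hl2, star_add, star_mul, hB'.sym, hB'.sym, hB'.star_s, map_mul, map_ofNat, mul_neg, hB'.ιs,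
      two_mul]
    abel
  obtain ⟨m, hme⟩ : ∃ m, m = q + 2 * ez x0 pl := ⟨_, rfl⟩
  have hmm : star M0 * M0 + barW W v (star M0 * M0) + (l + star l) = ι m := by
    rw [hq, hls, hme, map_add]
  obtain ⟨tm, htm⟩ := H.gen m
  have hMM : MM σ g v (m0 : MQ E a b) (Tm v w) = ez (Tm v x) (fun i => algebraMap k E (tm i)) := by
    have h1 := congrArg (toW W) hmm
    rw [map_add, map_add, map_add, H.toW_bar hSm, toW_star, hSt, hl, htm, toW_ez, hx0] at h1
    exact h1
  obtain ⟨ht0, hpos⟩ := hsgn w hwU hact tm p hp hMM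
  have hm00 : m ≠ 0 := by
    rw [htm]
    intro h0
    exact ht0 (H.ind _ h0)
  -- the quaternion algebra
  obtain ⟨α, β, i, j, hfr, hbi, hbj⟩ := hB'.exists_QFr hkap (cen_nc H)
  obtain ⟨φ, hφ⟩ := exists_qhom hfr
  have HQ : BarQ ι (algebraMap k F kap) (algebraMap (KW W) (BW W) (thK W)) (barW W v) α β i j φ :=
    ⟨hB', hfr, hbi, hbj, hkap, hφ⟩
  obtain ⟨y, hy, hy1, hy2⟩ := HQ.exists_sol hSm hSs hl2 hn hmm hm00 (fun ψ _ _ => by
    have h1 := hpos (ψ.comp (algebraMap k F)) (ψ x0) (by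
      have h2 := congrArg ψ hpx
      rw [map_pow, ez, map_add, map_add, Algebra.smul_def, Algebra.smul_def, Algebra.smul_def,
        mul_one, map_mul, map_mul, map_pow] at h2
      rw [h2]
      change _ = ψ (algebraMap k F (p 2)) * ψ x0 ^ 2 + ψ (algebraMap k F (p 1)) * ψ x0 +
        ψ (algebraMap k F (p 0))
      ring)
    have h3 : ψ m = (ψ.comp (algebraMap k F)) (tm 0) + (ψ.comp (algebraMap k F)) (tm 1) * ψ x0 +
        (ψ.comp (algebraMap k F)) (tm 2) * ψ x0 ^ 2 := by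
      rw [htm, ez, map_add, map_add, Algebra.smul_def, Algebra.smul_def, Algebra.smul_def,
        mul_one, map_mul, map_mul, map_pow]
      rfl
    rw [h3]
    exact h1)
  -- the final element
  have hM00 : M0 ≠ 0 := by
    rintro rfl
    rw [map_zero] at hM0
    have h1 : (m0 : MQ E a b) * ((m0⁻¹ : (MQ E a b)ˣ) : MQ E a b) = 1 := Units.mul_inv _
    rw [← hM0, Matrix.zero_mul] at h1
    exact zero_ne_one h1
  have hy0 : y ≠ 0 := by
    rintro rfl
    rw [mul_zero] at hy1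
    exact zero_ne_one hy1
  obtain ⟨m1, hm1⟩ : ∃ m1 : (MQ E a b)ˣ, (m1 : MQ E a b) = toW W (M0 * y) :=
    ⟨⟨toW W (M0 * y), toW W (M0 * y)⁻¹, by
      rw [← map_mul, mul_inv_cancel₀ (mul_ne_zero hM00 hy0), map_one], by
      rw [← map_mul, inv_mul_cancel₀ (mul_ne_zero hM00 hy0), map_one]⟩, rfl⟩
  have c1 : InD ρ lam (m1 : MQ E a b) := by
    rw [hm1]
    exact inD_toW W _
  have c2 : adjM σ g (m1 : MQ E a b) * (m1 : MQ E a b) = 1 := by
    rw [hm1, ← toW_star, ← map_mul, star_mul]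
    have : star y * star M0 * (M0 * y) = 1 := by
      rw [← hy1]
      simp only [mul_assoc]
    rw [this, map_one]
  have hyc := H.mem_iff.1 hy
  rw [hx0] at hyc
  have c3 : (m1 : MQ E a b) * Tm v x = Tm (h v) (h x) * (m1 : MQ E a b) := by
    rw [hm1, map_mul, hM0, Matrix.mul_assoc, hyc, ← Matrix.mul_assoc, hm, Matrix.mul_assoc]
  have c4 : (m1 : MQ E a b) * mat v * (m1 : MQ E a b)ᴴ = mat (h v) := by
    -- `y v yᴴ = (y ȳ) v` and `l (y ȳ) = 1`
    have e1 : toW W y * mat v * (toW W y)ᴴ = toW W (y * barW W v y) * mat v := by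
      rw [map_mul, H.toW_bar hy, Matrix.mul_assoc (toW W y) (barM v (toW W y)),
        barM_mul D.hv D.nv, ← Matrix.mul_assoc]
    have e2 : (m0 : MQ E a b) * mat v * (m0 : MQ E a b)ᴴ = Tm (h v) (h w) * mat (h v) := by
      rw [← E6.mat_act m0 1, hact, Tm_mul D'.hv D'.nv]
    -- the inverse of `l`
    have hl0 : l ≠ 0 := by
      rintro rfl
      rw [zero_mul] at hy2
      exact zero_ne_one hy2
    have e3 : y * barW W v y = l⁻¹ := eq_inv_of_mul_eq_one_right hy2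
    -- `l⁻¹ v` belongs to the frame
    obtain ⟨u, hu, hul⟩ : ∃ u ∈ U, Tm v u * Tm v w = 1 := by
      have hw0 : cub w ≠ 0 := by
        rw [← hh1, ← hact, cub_act_one (H64.aniso_of_division W.hdiv) m0 D.hv]
        exact mul_ne_zero (nu_ne_zero (H64.aniso_of_division W.hdiv) m0) D.nv
      obtain ⟨u, hu, hu'⟩ := D.div hwU hw0 D.mv
      exact ⟨u, hu, by rw [hu', Tm_self D.hv D.nv]⟩
    have e4 : toW W l⁻¹ = Tm v u := by
      have h1 : toW W l⁻¹ * Tm v w = 1 := by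
        rw [← hl, ← map_mul, inv_mul_cancel₀ hl0, map_one]
      have h2 : Tm v w * toW W l⁻¹ = 1 := by
        rw [← hl, ← map_mul, mul_inv_cancel₀ hl0, map_one]
      calc toW W l⁻¹ = (Tm v u * Tm v w) * toW W l⁻¹ := by rw [hul, Matrix.one_mul]
        _ = _ := by rw [Matrix.mul_assoc, h2, Matrix.mul_one]
    have e5 : Tm (h v) (h u) * Tm (h v) (h w) = 1 := by
      have h1 : Tm v u * mat w = mat v := by
        rw [← Tm_mul D.hv D.nv w, ← Matrix.mul_assoc, hul, Matrix.one_mul]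
      have h2 := D.toFr.mulrel' hh1 hV hu hwU D.mv h1
      apply H619.mat_cancel D'.hv D'.nv
      rw [Matrix.mul_assoc, Tm_mul D'.hv D'.nv, h2, Matrix.one_mul]
    have e6 : (m0 : MQ E a b) * Tm v u = Tm (h v) (h u) * (m0 : MQ E a b) :=
      D.toFr.intw hh1 hV hm hu
    rw [hm1, map_mul, hM0, Matrix.conjTranspose_mul]
    calc _ = (m0 : MQ E a b) * (toW W y * mat v * (toW W y)ᴴ) * (m0 : MQ E a b)ᴴ := by
          simp only [Matrix.mul_assoc]
      _ = ((m0 : MQ E a b) * Tm v u) * mat v * (m0 : MQ E a b)ᴴ := by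
          rw [e1, e3, e4]
          simp only [Matrix.mul_assoc]
      _ = Tm (h v) (h u) * ((m0 : MQ E a b) * mat v * (m0 : MQ E a b)ᴴ) := by
          rw [e6]
          simp only [Matrix.mul_assoc]
      _ = _ := by rw [e2, ← Matrix.mul_assoc, e5, Matrix.one_mul]
  have c5 : nu (m1 : MQ E a b) = 1 := by
    have h1 : cub (act m1 1 v) = nu (m1 : MQ E a b) * cub v := cub_act_one (H64.aniso_of_division W.hdiv) m1 D.hv
    have h2 : act m1 1 v = h v := by
      refine inV_ext (E6I.Gn.inV_act D.hv _ _) D'.hv ?_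
      rw [E6.mat_act, c4]
    rw [h2, hh1] at h1
    exact mul_right_cancel₀ D.nv (by rw [← h1, one_mul])
  -- the conclusion
  obtain ⟨φ1, hφ1⟩ : ∃ φ1 : AlbL E a b c ≃ₗ[E] AlbL E a b c, ∀ y, φ1 y = act m1 1 y :=
    ⟨H64.actL two_ne_zero m1 1, fun y => by rw [H64.actL_apply, Units.val_one]⟩
  have hφR := hSq m1 c1 c2 c5 φ1 hφ1
  have hφG : φ1 ∈ GO ρ σ lam g a b c := by
    obtain ⟨ψ, -, hψ⟩ := hφR
    rw [← hψ]
    exact ψ.2
  have hd : φ1⁻¹ * h ∈ ResB ρ σ lam g a b c := by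
    refine hB _ (mul_mem (inv_mem hφG) ⟨hh1, hh2, hh3⟩) ?_
    intro y hy
    have h1 : φ1 y = h y := by
      rw [hφ1]
      exact D.toFr.agree hh1 hV c3 c4 hy
    change φ1⁻¹ (h y) = y
    rw [← h1, ← LinearEquiv.mul_apply, inv_mul_cancel]
    rfl
  have e : h = φ1 * (φ1⁻¹ * h) := by rw [mul_inv_cancel_left]
  rw [e]
  exact mul_mem hφR hd

end exact

end Vale.Agent.P011.E6W.H619

end part3

section part4

open Filter Topology

set_option linter.unusedSectionVars false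

namespace Vale.Agent.P011.E6W.H619

open Vale.Agent.P011.MPQ hiding mat
open Vale.Agent.P011.D4 Vale.Agent.P011.D4.Oct Vale.Agent.P011.E6 Alb
open Vale.Agent.P011.D4W
open Vale.Agent.P011.E6O
open Vale.Agent.P011.E6H (nm qnm qnm_nonneg)
open Vale.Agent.P011.E6I (MQ toMQ toMQ_apply toMQ_mul toMQ_one InVs cub_of_inV)
open Vale.Agent.P011.E6I.Gn (Tm Tm_apply Tm_mul Tm_self Tm_inj Tm_cancel Tm_sq Tm_cube inV_ext
  inV_add inV_smul inV_adj inV_cross mat_mul_adj mat_adj_mul)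
open Vale.Agent.P011.E6W.H183
open Matrix

section real

end real

section alg

variable {F R : Type} [Field F] [Ring R] [Algebra F R]

end alg

section near

variable {k E X : Type} [Field k] [NumberField k] [Field E] [NumberField E] [Algebra k E]
  {ρ σ : E ≃ₐ[k] E} {lam : Eˣ} {g : Fin 3 → Eˣ} {th s : E} {kap a b c : kˣ}
  {W : WH ρ σ lam g th s kap a b c} {F : Filter X}

/-- **The elements of the group which are close to an element with a frame.** -/
theorem near_resB (W : WH ρ σ lam g th s kap a b c) (hSq : SqResB ρ σ lam g a b c)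
    {h : X → AlbL E a b c ≃ₗ[E] AlbL E a b c} {n0 : AlbL E a b c ≃ₗ[E] AlbL E a b c}
    (hh : ∀ i, h i ∈ GO ρ σ lam g a b c)
    (hlim : ∀ y, AV (SA E) F (fun i => h i y) (n0 y)) {v0 x0 : AlbL E a b c}
    (hv0 : InVs v0) (hx0 : InVs x0) (nv0 : cub v0 ≠ 0) (nx0 : cub x0 ≠ 0)
    (fv : n0 v0 = v0) (fx : n0 x0 = x0)
    (hD : InD ρ lam (Tm v0 x0)) (hs : adjM σ g (Tm v0 x0) = Tm v0 x0)
    (hind : ∀ t : Fin 3 → E, ez (Tm v0 x0) t = 0 → t = 0)
    (hU : ∀ y, InVs y → InVs (n0 y) → ∃ t : Fin 3 → E, Alb.mat y = ez (Tm v0 x0) t * Alb.mat v0)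
    {q : Fin 3 → k} (hq : Tm v0 x0 ^ 3 = ez (Tm v0 x0) (fun i => algebraMap k E (q i)))
    (hdq : dsc (algebraMap k E (q 2)) (algebraMap k E (q 1)) (algebraMap k E (q 0)) ≠ 0)
    (hB : ∃ t : ℝ, 0 < t ∧ ∀ (z : MQ E a b) (v : AlbL E a b c) (p₂ p₁ p₀ : k),
      Frame ρ σ lam g z v p₂ p₁ p₀ → NearM t (Tm v0 x0) z → NearV t v0 v →
      ∀ d ∈ GO ρ σ lam g a b c, FixFr z v d → d ∈ ResB ρ σ lam g a b c) :
    ∀ᶠ i in F, h i ∈ ResB ρ σ lam g a b c := by
  have hne : (SA E).Nonempty := SA_nonempty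
  have hcub : ∀ i y, cub (h i y) = cub y := fun i => (hh i).1
  have hph : ∀ i y, h i (E6O.ph ρ lam y) = E6O.ph ρ lam (h i y) := fun i => (hh i).2.1
  have hpol : ∀ i y, h i (H183.pol σ g y) = H183.pol σ g (h i y) := fun i y =>
    map_pol W.rel.σ2 (hh i).1 (hh i).2.2 y
  obtain ⟨v, x, lv, lx, hF⟩ := exists_frames hne (Stb_SA ρ) (Stb_SA σ) W.rel W.ρ3 W.ρlam hcub hph
    hpol hlim hv0 hx0 nv0 nx0 fv fx hD hs hind hU
  have hUV : ∀ i, ∀ y ∈ UW (h i), InVs (h i y) := fun i y hy => hy.2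
  obtain ⟨z0, hz0⟩ : ∃ z0, z0 = Tm v0 x0 := ⟨_, rfl⟩
  rw [← hz0] at hD hs hind hU hq hB
  -- the limits of the quotients
  have iv : ∀ᶠ i in F, InVs (v i) := hF.mono fun i hi => hi.1.hv
  have lz : AV (SA E) F (fun i => Tm (v i) (x i)) z0 := by
    rw [hz0]
    exact Tm_lim hne lv lx iv hv0 nv0
  have lhv : AV (SA E) F (fun i => h i (v i)) v0 := by
    have h1 := AV.app (h := fun i => (h i : AlbL E a b c →ₗ[E] AlbL E a b c))
      (h0 := (n0 : AlbL E a b c →ₗ[E] AlbL E a b c)) hlim lv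
    refine h1.congr (fun _ => rfl) fv
  have lhx : AV (SA E) F (fun i => h i (x i)) x0 := by
    have h1 := AV.app (h := fun i => (h i : AlbL E a b c →ₗ[E] AlbL E a b c))
      (h0 := (n0 : AlbL E a b c →ₗ[E] AlbL E a b c)) hlim lx
    refine h1.congr (fun _ => rfl) fx
  have ihv : ∀ᶠ i in F, InVs (h i (v i)) := hF.mono fun i hi => hUV i _ hi.1.mv
  have lz' : AV (SA E) F (fun i => Tm (h i (v i)) (h i (x i))) z0 := by
    rw [hz0]
    exact Tm_lim hne lhv lhx ihv hv0 nv0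
  -- the polynomials
  obtain ⟨p, hp⟩ : ∃ p : X → Fin 3 → k, ∀ i, (Frs ρ σ lam g (UW (h i)) (v i) (x i) ∧
      InD ρ lam (Tm (v i) (x i)) ∧ adjM σ g (Tm (v i) (x i)) = Tm (v i) (x i)) →
      Tm (v i) (x i) ^ 3 = ez (Tm (v i) (x i)) (fun j => algebraMap k E (p i j)) := by
    have h1 : ∀ i, ∃ p : Fin 3 → k, (Frs ρ σ lam g (UW (h i)) (v i) (x i) ∧
        InD ρ lam (Tm (v i) (x i)) ∧ adjM σ g (Tm (v i) (x i)) = Tm (v i) (x i)) →
        Tm (v i) (x i) ^ 3 = ez (Tm (v i) (x i)) (fun j => algebraMap k E (p j)) := by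
      intro i
      by_cases hi : Frs ρ σ lam g (UW (h i)) (v i) (x i) ∧
        InD ρ lam (Tm (v i) (x i)) ∧ adjM σ g (Tm (v i) (x i)) = Tm (v i) (x i)
      · obtain ⟨D, hDi, hsi⟩ := hi
        obtain ⟨P2, P1, P0, hP⟩ : ∃ P2 P1 P0 : E, Tm (v i) (x i) ^ 3 = P2 • Tm (v i) (x i) ^ 2 +
            P1 • Tm (v i) (x i) + P0 • (1 : MQ E a b) := ⟨_, _, _, D.cube⟩
        obtain ⟨⟨f2, f1, f0⟩, g2, g1, g0⟩ := coef_fix W.rel hDi hsi hP D.ind
        obtain ⟨p2, hp2⟩ := exists_kW W f2 g2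
        obtain ⟨p1, hp1⟩ := exists_kW W f1 g1
        obtain ⟨p0, hp0⟩ := exists_kW W f0 g0
        refine ⟨![p0, p1, p2], fun _ => ?_⟩
        rw [hP, ez]
        change _ = algebraMap k E p0 • 1 + algebraMap k E p1 • Tm (v i) (x i) +
          algebraMap k E p2 • Tm (v i) (x i) ^ 2
        rw [hp0, hp1, hp2]
        abel
      · exact ⟨0, fun h => absurd h hi⟩
    choose p hp using h1
    exact ⟨p, hp⟩
  have lp : ∀ j, AE (SA E) F (fun i => algebraMap k E (p i j)) (algebraMap k E (q j)) := by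
    refine ez_coef hne lz hind (t := fun i j => algebraMap k E (p i j))
      (t0 := fun j => algebraMap k E (q j)) ?_
    have h1 := lz.pow 3
    rw [hq] at h1
    refine h1.congr' ?_
    filter_upwards [hF] with i hi
    exact hp i hi
  -- the intertwining matrices
  obtain ⟨m, hm⟩ : ∃ m : X → MQ E a b, m = fun i => dd (algebraMap k E (p i 2))
    (algebraMap k E (p i 1)) (Tm (h i (v i)) (h i (x i))) (Tm (v i) (x i)) := ⟨_, rfl⟩
  have lm : AV (SA E) F m (H541.fd (algebraMap k E (q 2)) (algebraMap k E (q 1)) z0) := by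
    rw [hm, ← dd_self]
    exact ((((lz'.pow 2).add (lz'.mul lz)).add (lz.pow 2)).sub
      (AV.smul (lp 2) (lz'.add lz))).sub (AV.smul (lp 1) (AV.const _ _ 1))
  obtain ⟨G, hG⟩ : ∃ G : X → MQ E a b, G = fun i =>
    (-dsc (algebraMap k E (p i 2)) (algebraMap k E (p i 1)) (algebraMap k E (p i 0)))⁻¹ •
      H541.gd (algebraMap k E (p i 2)) (algebraMap k E (p i 1)) (algebraMap k E (p i 0))
        (Tm (v i) (x i)) := ⟨_, rfl⟩
  have lG : AV (SA E) F G
      ((-dsc (algebraMap k E (q 2)) (algebraMap k E (q 1)) (algebraMap k E (q 0)))⁻¹ •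
      H541.gd (algebraMap k E (q 2)) (algebraMap k E (q 1)) (algebraMap k E (q 0)) z0) := by
    rw [hG]
    have c0 := fun (t : E) => AE.const (SA E) F t
    have i1 := lp 2
    have i2 := lp 1
    have i3 := lp 0
    refine AV.smul (AE.inv (AE.neg ?_) (neg_ne_zero.2 hdq)) ?_
    · exact (((((i1.pow 2).mul (i2.pow 2)).add ((c0 4).mul (i2.pow 3))).sub
        (((c0 4).mul (i1.pow 3)).mul i3)).sub ((((c0 18).mul i1).mul i2).mul i3)).sub
        ((c0 27).mul (i3.pow 2))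
    · exact ((AV.smul (((i2.mul (i1.pow 2)).add ((c0 4).mul (i2.pow 2))).sub
        (((c0 3).mul i3).mul i1)) (AV.const _ _ 1)).add
        (AV.smul ((((c0 2).mul (i1.pow 3)).add (((c0 7).mul i2).mul i1)).add ((c0 9).mul i3))
          lz)).add (AV.smul (((c0 2).mul (i1.pow 2)).neg.sub ((c0 6).mul i2)) (lz.mul lz))
  have hq' : z0 * z0 * z0 = algebraMap k E (q 2) • (z0 * z0) + algebraMap k E (q 1) • z0 +
      algebraMap k E (q 0) • (1 : MQ E a b) := by
    rw [← pow_two, ← pow_succ, hq, ez]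
    abel
  have lmG : AV (SA E) F (fun i => m i * G i) 1 := by
    refine (lm.mul lG).congr (fun _ => rfl) ?_
    rw [Matrix.mul_smul, H541.fd_mul_gd hq', smul_smul, inv_mul_cancel₀ (neg_ne_zero.2 hdq),
      one_smul]
  have hInt : ∀ᶠ i in F, m i * G i * Tm (v i) (x i) =
      Tm (h i (v i)) (h i (x i)) * (m i * G i) := by
    filter_upwards [hF] with i hi
    have h1 := hp i hi
    obtain ⟨D, hDi, hsi⟩ := hi
    have h2 : Tm (v i) (x i) ^ 3 = algebraMap k E (p i 2) • Tm (v i) (x i) ^ 2 +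
        algebraMap k E (p i 1) • Tm (v i) (x i) + algebraMap k E (p i 0) • (1 : MQ E a b) := by
      rw [h1, ez]
      abel
    have h3 := D.toFr.cube_map (hcub i) (hUV i) h2
    have h4 := dd_comm h3 h2
    have h5 : Tm (v i) (x i) * G i = G i * Tm (v i) (x i) := by
      rw [hG]
      beta_reduce
      rw [mul_smul_comm, smul_mul_assoc, gd_comm rfl]
    have h6 : m i = dd (algebraMap k E (p i 2)) (algebraMap k E (p i 1))
      (Tm (h i (v i)) (h i (x i))) (Tm (v i) (x i)) := by rw [hm]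
    rw [mul_assoc, ← h5, ← mul_assoc, h6, ← h4, mul_assoc]
  have hInD : ∀ᶠ i in F, InD ρ lam (m i * G i) := by
    filter_upwards [hF] with i hi
    obtain ⟨D, hDi, hsi⟩ := hi
    have h1 := D.inD_map (hcub i) (hUV i) (hph i) hDi
    rw [hm, hG]
    refine (inD_dd h1 hDi _ _).mul (inD_smul (inD_gd hDi _ _ _) ?_)
    rw [dsc_map, ← map_neg, ← map_inv₀]
    exact ρ.commutes _
  -- the units
  obtain ⟨mu, hmu⟩ : ∃ mu : X → (MQ E a b)ˣ, ∀ i, InD ρ lam (m i * G i) → m i * G i ≠ 0 →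
      ((mu i : (MQ E a b)ˣ) : MQ E a b) = m i * G i := by
    have h1 : ∀ i, ∃ u : (MQ E a b)ˣ, InD ρ lam (m i * G i) → m i * G i ≠ 0 →
        (u : MQ E a b) = m i * G i := by
      intro i
      by_cases hi : InD ρ lam (m i * G i) ∧ m i * G i ≠ 0
      · obtain ⟨u, hu⟩ := exists_unit W hi.1 hi.2
        exact ⟨u, fun _ _ => hu⟩
      · exact ⟨1, fun h1 h2 => absurd ⟨h1, h2⟩ hi⟩
    choose mu hmu using h1
    exact ⟨mu, hmu⟩
  have hmu' : ∀ᶠ i in F, m i * G i = ((mu i : (MQ E a b)ˣ) : MQ E a b) := by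
    filter_upwards [hInD, lmG.eventually_ne hne one_ne_zero] with i h1 h2
    exact (hmu i h1 h2).symm
  have lmu : AV (SA E) F (fun i => ((mu i : (MQ E a b)ˣ) : MQ E a b)) 1 := lmG.congr' hmu'
  have linv : AV (SA E) F (fun i => (((mu i)⁻¹ : (MQ E a b)ˣ) : MQ E a b)) 1 :=
    AV.inv hne lmu (one_mul 1) (one_mul 1) (Eventually.of_forall fun i => Units.mul_inv (mu i))
  have lmi : AV (SA E) F (fun i => mi (h i (v i))) (mi v0) := mi_lim hne lhv ihv hv0 nv0
  have lmi' : AV (SA E) F (fun i => mi (v i)) (mi v0) := mi_lim hne lv iv hv0 nv0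
  obtain ⟨L, hL⟩ : ∃ L : X → MQ E a b, L = fun i => (((mu i)⁻¹ : (MQ E a b)ˣ) : MQ E a b) *
      (((mu i : (MQ E a b)ˣ) : MQ E a b) * Alb.mat (v i) * ((mu i : (MQ E a b)ˣ) : MQ E a b)ᴴ *
        mi (h i (v i))) * ((mu i : (MQ E a b)ˣ) : MQ E a b) := ⟨_, rfl⟩
  have lL : AV (SA E) F L 1 := by
    rw [hL]
    refine ((linv.mul (((lmu.mul lv.mat).mul lmu.ct).mul lmi)).mul lmu).congr (fun _ => rfl) ?_
    rw [Matrix.conjTranspose_one, Matrix.mul_one, Matrix.one_mul, Matrix.one_mul,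
      Matrix.mul_one, mat_mul_mi hv0 nv0]
  obtain ⟨SS, hSS⟩ : ∃ SS : X → MQ E a b, SS = fun i =>
      adjM σ g ((mu i : (MQ E a b)ˣ) : MQ E a b) * ((mu i : (MQ E a b)ˣ) : MQ E a b) := ⟨_, rfl⟩
  have lS : AV (SA E) F SS 1 := by
    rw [hSS]
    refine ((lmu.adjM (g := g) (Stb_SA σ)).mul lmu).congr (fun _ => rfl) ?_
    rw [adjM_one, Matrix.one_mul]
  obtain ⟨M, hM⟩ : ∃ M : X → MQ E a b, M = fun i => SS i + barM (v i) (SS i) +
      (L i + adjM σ g (L i)) := ⟨_, rfl⟩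
  have lM : AV (SA E) F M (ez z0 (fun j => algebraMap k E ((![4, 0, 0] : Fin 3 → k) j))) := by
    have lb : AV (SA E) F (fun i => barM (v i) (SS i)) 1 := by
      refine ((lv.mat.mul lS.ct).mul lmi').congr (fun i => ?_) ?_
      · rw [barM, mi, Matrix.mul_smul]
      · rw [Matrix.conjTranspose_one, Matrix.mul_one, mat_mul_mi hv0 nv0]
    rw [hM]
    refine ((lS.add lb).add (lL.add (lL.adjM (g := g) (Stb_SA σ)))).congr (fun _ => rfl) ?_
    rw [adjM_one, ez]
    change _ = algebraMap k E 4 • (1 : MQ E a b) + algebraMap k E 0 • z0 +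
      algebraMap k E 0 • z0 ^ 2
    rw [map_zero, zero_smul, zero_smul, add_zero, add_zero, map_ofNat]
    module
  -- the bounds
  obtain ⟨C, hC⟩ : ∃ C : ℝ, ∀ (w : E →+* ℂ) (j : Fin 3), ‖w (algebraMap k E (q j))‖ ≤ C := by
    have hfin : (Set.range fun wj : (E →+* ℂ) × Fin 3 =>
      ‖wj.1 (algebraMap k E (q wj.2))‖).Finite := Set.finite_range _
    obtain ⟨C, hC⟩ := hfin.bddAbove
    exact ⟨C, fun w j => hC ⟨(w, j), rfl⟩⟩
  obtain ⟨w0⟩ : Nonempty (E →+* ℂ) := inferInstance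
  have hC0 : 0 ≤ C := (norm_nonneg _).trans (hC w0 0)
  obtain ⟨R, hR⟩ : ∃ R, R = 1 + 3 * (C + 1) := ⟨_, rfl⟩
  have hR0 : 0 ≤ R := by rw [hR]; positivity
  obtain ⟨δ, hδ⟩ : ∃ δ, δ = (1 + R + R ^ 2)⁻¹ := ⟨_, rfl⟩
  have hRR : 0 < 1 + R + R ^ 2 := by positivity
  have hδ0 : 0 < δ := by rw [hδ]; positivity
  have hδR : δ * (1 + R + R ^ 2) ≤ 1 := by
    rw [hδ, inv_mul_cancel₀ hRR.ne']
  have hδ1 : δ ≤ 1 := by
    rw [hδ]
    apply inv_le_one_of_one_le₀
    nlinarith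
  have hMt := ez_coef_all hne SA_finite lz hind lM hδ0
  have hpt : ∀ᶠ i in F, ∀ p' ∈ SA E, ∀ j,
      p' (algebraMap k E (p i j) - algebraMap k E (q j)) < 1 := by
    rw [eventually_all_finite SA_finite]
    intro p' hp'
    rw [eventually_all]
    intro j
    exact (lp j).eventually_lt hp' one_pos
  -- the proximity
  obtain ⟨t, ht0, hB⟩ := hB
  have hnz : ∀ᶠ i in F, NearM t z0 (Tm (v i) (x i)) := by
    unfold NearM
    rw [eventually_all]
    intro w
    filter_upwards [(tendsto_mnm lz w).eventually (gt_mem_nhds ht0)] with i hi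
    exact hi.le
  have hnv : ∀ᶠ i in F, NearV t v0 (v i) := by
    unfold NearV
    rw [eventually_all]
    intro w
    filter_upwards [(tendsto_nm lv w).eventually (gt_mem_nhds ht0)] with i hi
    exact hi.le
  filter_upwards [hF, hInt, hInD, hmu', hMt, hpt, hnz, hnv] with i hi h1 h2 h3 h4 h5 h6 h7
  have hpi := hp i hi
  obtain ⟨D, hDi, hsi⟩ := hi
  rw [h3] at h1 h2
  have D' := D.toFr.map (hcub i) (hUV i)
  refine mem_of_frameB W hSq (hh i) D (hUV i) hDi hsi h2 h1 ?_ ?_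
  · intro w hw hact tt pp hpp hMM
    -- the coefficients of the cubic relation
    have hpe : pp = p i := by
      rw [hpi] at hpp
      have e1 : ez (Tm (v i) (x i)) ((fun j => algebraMap k E (p i j)) +
          (-1 : E) • fun j => algebraMap k E (pp j)) = 0 := by
        rw [ez_add, ez_smul, ← hpp]
        module
      obtain ⟨d0, d1, d2⟩ := D.ind _ _ _ e1
      have e2 : ∀ j, algebraMap k E (p i j) + -1 * algebraMap k E (pp j) = 0 := by
        intro j
        fin_cases j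
        · exact d0
        · exact d1
        · exact d2
      funext j
      apply (algebraMap k E).injective
      linear_combination -(e2 j)
    -- the element
    have hL' : L i = Tm (v i) w := by
      have e1 := D.toFr.intw (hcub i) (hUV i) h1 hw
      have e2 : ((mu i : (MQ E a b)ˣ) : MQ E a b) * Alb.mat (v i) *
          ((mu i : (MQ E a b)ˣ) : MQ E a b)ᴴ = Alb.mat (h i w) := by
        rw [← hact, E6.mat_act]
      rw [hL]
      beta_reduce
      rw [e2, ← Tm_eq, Matrix.mul_assoc, ← e1, ← Matrix.mul_assoc, Units.inv_mul, Matrix.one_mul]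
    have hM' : M i = ez (Tm (v i) (x i)) (fun j => algebraMap k E (tt j)) := by
      rw [← hMM, hM, MM, hSS, ← hL']
    have h8 := h4 _ hM'
    refine ⟨?_, ?_⟩
    · rintro rfl
      have e1 := h8 _ ⟨w0, rfl⟩ 0
      rw [NumberField.place_apply] at e1
      have e2 : w0 (algebraMap k E ((0 : Fin 3 → k) 0) -
          algebraMap k E ((![4, 0, 0] : Fin 3 → k) 0)) = -4 := by
        rw [Pi.zero_apply, map_zero, zero_sub, map_neg]
        change -w0 (algebraMap k E 4) = _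
        rw [map_ofNat, map_ofNat]
      rw [e2, _root_.norm_neg] at e1
      have e3 : ‖(4 : ℂ)‖ = 4 := by norm_num
      rw [e3] at e1
      linarith
    · intro τ ζ hζ
      obtain ⟨w1, hw1⟩ := exists_w (E := E) τ
      have hn : ∀ y y' : k, NumberField.place w1 (algebraMap k E y - algebraMap k E y') =
          |τ y - τ y'| := by
        intro y y'
        rw [NumberField.place_apply, map_sub, hw1, hw1, ← Complex.ofReal_sub, Complex.norm_real,
          Real.norm_eq_abs]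
      have hn' : ∀ y : k, ‖w1 (algebraMap k E y)‖ = |τ y| := by
        intro y
        rw [hw1, Complex.norm_real, Real.norm_eq_abs]
      have hpb : ∀ j, |τ (p i j)| ≤ C + 1 := by
        intro j
        have e1 := h5 _ ⟨w1, rfl⟩ j
        rw [hn] at e1
        have e2 := hC w1 j
        rw [hn'] at e2
        have e3 : |τ (p i j)| ≤ |τ (p i j) - τ (q j)| + |τ (q j)| := by
          have := abs_add_le (τ (p i j) - τ (q j)) (τ (q j))
          rwa [sub_add_cancel] at this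
        linarith
      rw [hpe] at hζ
      have hζR : |ζ| ≤ R := by
        rw [hR]
        exact root_le (hpb 0) (hpb 1) (hpb 2) hζ
      have f0 := h8 _ ⟨w1, rfl⟩ 0
      have f1 := h8 _ ⟨w1, rfl⟩ 1
      have f2 := h8 _ ⟨w1, rfl⟩ 2
      rw [hn] at f0 f1 f2
      refine val_pos hδR ?_ ?_ ?_ hζR
      · rw [← map_ofNat τ 4]
        exact f0
      · have : (![4, 0, 0] : Fin 3 → k) 1 = 0 := rfl
        rw [this, map_zero, sub_zero] at f1
        exact f1
      · have : (![4, 0, 0] : Fin 3 → k) 2 = 0 := rfl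
        rw [this, map_zero, sub_zero] at f2
        exact f2
  · intro d hd hdf
    have hfr : Frame ρ σ lam g (Tm (v i) (x i)) (v i) (p i 2) (p i 1) (p i 0) := by
      refine ⟨hDi, hsi, ?_, D.hv, D.nv, D.toFr.herm⟩
      rw [hpi, ez]
      abel
    refine hB _ _ _ _ _ hfr h6 h7 d hd ?_
    rintro y hy ⟨t0, t1, t2, ht⟩
    apply hdf
    have e : y = t0 • v i + t1 • x i + t2 • sqv (v i) (x i) := by
      refine inV_ext hy (D.inV _ (D.comb_mem _ _ _)) ?_
      rw [ht, ← Tm_mul D.hv D.nv (t0 • v i + t1 • x i + t2 • sqv (v i) (x i)), D.comb]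
    rw [e]
    exact D.comb_mem _ _ _

end near

end Vale.Agent.P011.E6W.H619

end part4

section part5

open Filter Topology

set_option linter.unusedSectionVars false

namespace Vale.Agent.P011.E6W.H619

open Vale.Agent.P011.MPQ hiding mat
open Vale.Agent.P011.D4 Vale.Agent.P011.D4.Oct Vale.Agent.P011.E6 Alb
open Vale.Agent.P011.D4W
open Vale.Agent.P011.E6O
open Vale.Agent.P011.E6H (nm qnm qnm_nonneg nm_nonneg)
open Vale.Agent.P011.E6I (MQ toMQ toMQ_apply toMQ_mul toMQ_one InVs cub_of_inV tm tm_mul tm_inj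
  tm_ct)
open Vale.Agent.P011.E6I.Gn (Tm Tm_apply Tm_mul Tm_self Tm_inj Tm_cancel Tm_sq Tm_cube inV_ext
  inV_add inV_smul inV_adj inV_cross mat_mul_adj mat_adj_mul)
open Vale.Agent.P011.E6W.H183
open Matrix

section base

variable {k E : Type} [Field k] [NumberField k] [Field E] [NumberField E] [Algebra k E]
  {ρ σ : E ≃ₐ[k] E} {lam : Eˣ} {g : Fin 3 → Eˣ} {th s : E} {kap a b c : kˣ}

/-- The sequence argument. -/
theorem open_ofB (W : WH ρ σ lam g th s kap a b c) (hSq : SqResB ρ σ lam g a b c)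
    {n0 : AlbL E a b c ≃ₗ[E] AlbL E a b c} (hn0 : n0 ∈ GO ρ σ lam g a b c)
    (hn0R : n0 ∈ ResB ρ σ lam g a b c) {v0 x0 : AlbL E a b c}
    (hv0 : InVs v0) (hx0 : InVs x0) (nv0 : cub v0 ≠ 0) (nx0 : cub x0 ≠ 0)
    (fv : n0 v0 = v0) (fx : n0 x0 = x0)
    (hD : InD ρ lam (Tm v0 x0)) (hs : adjM σ g (Tm v0 x0) = Tm v0 x0)
    (hind : ∀ t : Fin 3 → E, ez (Tm v0 x0) t = 0 → t = 0)
    (hU : ∀ y, InVs y → InVs (n0 y) → ∃ t : Fin 3 → E, Alb.mat y = ez (Tm v0 x0) t * Alb.mat v0)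
    {q : Fin 3 → k} (hq : Tm v0 x0 ^ 3 = ez (Tm v0 x0) (fun i => algebraMap k E (q i)))
    (hdq : dsc (algebraMap k E (q 2)) (algebraMap k E (q 1)) (algebraMap k E (q 0)) ≠ 0)
    (hB : ∃ t : ℝ, 0 < t ∧ ∀ (z : MQ E a b) (v : AlbL E a b c) (p₂ p₁ p₀ : k),
      Frame ρ σ lam g z v p₂ p₁ p₀ → NearM t (Tm v0 x0) z → NearV t v0 v →
      ∀ d ∈ GO ρ σ lam g a b c, FixFr z v d → d ∈ ResB ρ σ lam g a b c) :
    OpenResB ρ σ lam g a b c := by
  by_contra hcon
  have hcon' : ∀ t : ℝ, 0 < t → ∃ h ∈ GO ρ σ lam g a b c, NearL t 1 h ∧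
      h ∉ ResB ρ σ lam g a b c := by
    intro t ht
    by_contra h1
    push Not at h1
    exact hcon ⟨t, ht, fun h hh hn => h1 h hh hn⟩
  have h1 : ∀ n : ℕ, ∃ h ∈ GO ρ σ lam g a b c, NearL (1 / ((n : ℝ) + 1)) 1 h ∧
      h ∉ ResB ρ σ lam g a b c := fun n => hcon' _ Nat.one_div_pos_of_nat
  choose h hG hN hR using h1
  obtain ⟨H, hH⟩ : ∃ H : ℕ → AlbL E a b c ≃ₗ[E] AlbL E a b c, ∀ n, H n = h n * n0 :=
    ⟨_, fun _ => rfl⟩
  have hHG : ∀ n, H n ∈ GO ρ σ lam g a b c := fun n => by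
    rw [hH]
    exact mul_mem (hG n) hn0
  have hlim : ∀ y, AV (SA E) atTop (fun n => H n y) (n0 y) := by
    intro y
    apply AV_of_nm
    intro w
    have h2 : Tendsto (fun n : ℕ => 1 / ((n : ℝ) + 1) * nm w (n0 y)) atTop (𝓝 0) := by
      have := (tendsto_one_div_add_atTop_nhds_zero_nat (𝕜 := ℝ)).mul_const (nm w (n0 y))
      rwa [zero_mul] at this
    refine squeeze_zero (fun n => nm_nonneg w _) (fun n => ?_) h2
    rw [hH]
    exact hN n w (n0 y)
  obtain ⟨n, hn⟩ := (near_resB W hSq hHG hlim hv0 hx0 nv0 nx0 fv fx hD hs hind hU hq hdq hB).exists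
  apply hR n
  have e : h n = H n * n0⁻¹ := by rw [hH, mul_inv_cancel_right]
  rw [e]
  exact mul_mem hn (inv_mem hn0R)

section

variable {z₀ v₀ : Matrix (Fin 3) (Fin 3) E} {q₁ q₀ : k} {w₀ : E →+* ℝ}

end

/-- **The block (C).** -/
theorem openResB (W : WH ρ σ lam g th s kap a b c) {z₀ v₀ : Matrix (Fin 3) (Fin 3) E} {q₁ q₀ : k}
    {w₀ : E →+* ℝ} (B : Base ρ σ lam g a b c z₀ v₀ q₁ q₀ w₀) (hSq : SqResB ρ σ lam g a b c)
    (hFr : FrResB ρ σ lam g a b c z₀ v₀) : OpenResB ρ σ lam g a b c := by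
  obtain ⟨x0, hv0, hx0, nv0, nx0, mx0⟩ := base_vec W B
  have hInD : InD ρ lam (toMQ z₀ : MQ E a b) := inD_toMQ' B.inD
  have hadj : adjM σ g (toMQ z₀ : MQ E a b) = toMQ z₀ := adjM_toMQ B.sym
  -- the element `n0`
  obtain ⟨n0, hn0, hn1, hn2⟩ := H964.exists_n0 W B.inD hadj (base_ns B)
  have hq := base_cub B
  have hind := base_ind' B
  have hdq := base_dsc B
  obtain ⟨z, hz⟩ : ∃ z : MQ E a b, z = toMQ z₀ := ⟨_, rfl⟩
  obtain ⟨v0, hv⟩ : ∃ v0 : AlbL E a b c, v0 = ofF v₀ := ⟨_, rfl⟩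
  obtain ⟨q, hqd⟩ : ∃ q : Fin 3 → k, q = ![q₀, q₁, 0] := ⟨_, rfl⟩
  have hFr' : ∃ t : ℝ, 0 < t ∧ ∀ (z' : MQ E a b) (v : AlbL E a b c) (p₂ p₁ p₀ : k),
      Frame ρ σ lam g z' v p₂ p₁ p₀ → NearM t z z' → NearV t v0 v →
      ∀ d ∈ GO ρ σ lam g a b c, FixFr z' v d → d ∈ ResB ρ σ lam g a b c := by
    rw [hz, hv]
    exact hFr
  have hdq' : dsc (algebraMap k E (q 2)) (algebraMap k E (q 1)) (algebraMap k E (q 0)) ≠ 0 := by
    rw [hqd]
    exact hdq
  rw [← hz] at mx0 hInD hadj hn1 hn2 hq hind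
  rw [← hv] at hv0 nv0 mx0
  rw [← hqd] at hq
  have hcubz : Cub z (algebraMap k E (q 2)) (algebraMap k E (q 1)) (algebraMap k E (q 0)) := by
    refine ⟨?_, hind⟩
    rw [hq, ez]
    abel
  clear hFr hdq hqd B hz hv
  have hT : Tm v0 x0 = z := by
    rw [Tm_eq, mx0, Matrix.mul_assoc, mat_mul_mi hv0 nv0, Matrix.mul_one]
  have hherm : z * Alb.mat v0 = Alb.mat v0 * zᴴ := by
    have h1 : (Alb.mat x0)ᴴ = Alb.mat x0 := H64.mat_isHermitian x0
    have h2 : (Alb.mat v0)ᴴ = Alb.mat v0 := H64.mat_isHermitian v0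
    rw [mx0, Matrix.conjTranspose_mul, h2] at h1
    exact h1.symm
  have hhermx : z * Alb.mat x0 = Alb.mat x0 * zᴴ := by
    rw [mx0, Matrix.mul_assoc, ← hherm]
  have fv : n0 v0 = v0 := hn1 v0 hv0 hherm
  have fx : n0 x0 = x0 := hn1 x0 hx0 hhermx
  have hunit := fd_unit hcubz.rel hdq'
  have hU : ∀ y, InVs y → InVs (n0 y) → ∃ t : Fin 3 → E, Alb.mat y = ez z t * Alb.mat v0 :=
    fun y hy hy' => vz hv0 nv0 hherm hcubz hunit hy (hn2 y hy hy')
  have hn0R : n0 ∈ ResB ρ σ lam g a b c := by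
    obtain ⟨t, ht, hB'⟩ := hFr'
    refine hB' z v0 (q 2) (q 1) (q 0) ⟨hInD, hadj, hcubz.rel, hv0, nv0, hherm⟩ ?_ ?_ n0 hn0 ?_
    · intro w
      rw [sub_self, mnm_zero]
      exact ht.le
    · intro w
      rw [sub_self, nm_zero]
      exact ht.le
    · rintro y hy ⟨t0, t1, t2, hty⟩
      apply hn1 y hy
      have e1 : (t0 • (1 : MQ E a b) + t1 • z + t2 • z ^ 2) = ez z ![t0, t1, t2] := rfl
      rw [e1] at hty
      rw [hty, ← mul_assoc, ← ez_comm, mul_assoc, mul_assoc, hherm]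
  rw [← hT] at hInD hadj hind hU hq hFr'
  exact open_ofB W hSq hn0 hn0R hv0 hx0 nv0 nx0 fv fx hInD hadj hind hU hq hdq' hFr'

end base

end Vale.Agent.P011.E6W.H619

end part5

section part6

open NumberField Matrix IsDedekindDomain

namespace Vale.Agent.P011.E6W.H7

open Vale.Agent.P011.MPQ hiding mat
open Vale.Agent.P011.D4 Vale.Agent.P011.D4.Oct Vale.Agent.P011.E6
open Vale.Agent.P011.E6O (GO ResB)
open Vale.Agent.P011.E6W.H183 Vale.Agent.P011.Arith
open Vale.Agent.P011.E6H (IsSextic IsForm OpenAtB)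

variable {k E : Type} [Field k] [NumberField k] [Field E] [NumberField E] [Algebra k E]
  {ρ σ : E ≃ₐ[k] E} {lam : Eˣ} {g : Fin 3 → Eˣ} {th s : E} {kap a b c : kˣ}

/-- **The elements close to the identity belong to the finite residual**, from the blocks. -/
theorem near_resB (W : WH ρ σ lam g th s kap a b c)
    (hSix : ∀ {a b c : kˣ} (W : WH ρ σ lam g th s kap a b c),
      One.Tdiv k (KW W) (BW W) = ∅ → SixAt W)
    (hFr : ∀ {a b c : kˣ} (_ : WH ρ σ lam g th s kap a b c)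
      (_ : ∀ τ : k →+* ℝ, τ a < 0 → τ b < 0 ∧ τ c < 0) {z₀ v₀ : Matrix (Fin 3) (Fin 3) E}
      {q₁ q₀ : k} {w₀ : E →+* ℝ}, Base ρ σ lam g a b c z₀ v₀ q₁ q₀ w₀ →
      SqResB ρ σ lam g a b c → FrResB ρ σ lam g a b c z₀ v₀) :
    ∃ t : ℝ, 0 < t ∧ ∀ φ ∈ GO ρ σ lam g a b c, NearA t φ → φ ∈ ResB ρ σ lam g a b c := by
  obtain ⟨T, hT, h1⟩ := H541.exists_TW W
  obtain ⟨a', b', c', i, j, l, ht, h2, h3, h4⟩ := exists_good_at (divk W) hT
  have W' : WH ρ σ lam g th s kap a' b' c' := model W ht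
  have hTd := h1 a' b' c' W' h2
  have hgood : ∀ τ : k →+* ℝ, τ a' < 0 → τ b' < 0 ∧ τ c' < 0 := by
    intro τ hτ
    by_cases hd : Dfn τ a b c
    · exact (h3 τ hd).2
    · exact absurd hτ (not_lt.2 (h4 τ hd).le)
  have hSq := sqResB W' (hSix W' hTd) hTd
  obtain ⟨z₀, v₀, q₁, q₀, w₀, B⟩ := H541.exists_base W'
  obtain ⟨t, ht0, h5⟩ := H619.openResB W' B hSq (hFr W' hgood B hSq)
  exact near_of_modelB ht ⟨t, ht0, fun φ hφ hn => h5 φ hφ hn⟩

end Vale.Agent.P011.E6W.H7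

end part6
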