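import Vale.Agent.P011N.E1.Res
import Vale.Agent.P011N.E1.Leaf2
import Vale.Agent.P011.E6H.XDefs
import Vale.Agent.P011.E6X.End1
import Vale.Agent.P011.E6X.End2
import Vale.Agent.P011.E6X.H370.Move
import Vale.Agent.P011.E6X.H370.OppStd

/-!
Big subgroups, when the octonion algebra contains the quadratic extension: stabilizers of points.
-/

open Vale.Agent.P011N.E1 (Bg)

section part0

open NumberField

namespace Vale.Agent.P011.E6X

open Vale.Agent.P011.E6O

open Vale.Agent.P011.MPQ Vale.Agent.P011.D4 Vale.Agent.P011.D4.Oct Vale.Agent.P011.E6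
open Vale.Agent.P011.E6I (MQ toMQ)

variable {k E : Type} [Field k] [NumberField k] [Field E] [NumberField E] [Algebra k E]
  {ρ σ : E ≃ₐ[k] E} {lam : Eˣ} {g : Fin 3 → Eˣ} {al s : E} {a b c : kˣ}
  (H : Hyp ρ σ lam g al s a b c)

include H

theorem aut_ResB (f : AutC a b c) {φ : AlbL E a b c ≃ₗ[E] AlbL E a b c}
    (hφ : ∀ x : Alb a b c, φ (aup E x) = aup E (Alb.omapA f.1 x)) :
    φ ∈ ResB ρ σ lam g a b c := aut_Res'B H.hdiv f hφ

theorem trip_ResB {b' c' : kˣ} {j l : Oct a b c} (ht : Trip a b' c' gi j l)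
    {Ψ : AlbL E a b' c' ≃ₗ[E] AlbL E a b c}
    (hΨ : ∀ x, Ψ x = Alb.omapA (emb (oup E gi) (oup E j) (oup E l)) x)
    {φ : AlbL E a b' c' ≃ₗ[E] AlbL E a b' c'} :
    (φ ∈ GO ρ σ lam g a b' c' ↔ (Ψ.symm.trans φ).trans Ψ ∈ GO ρ σ lam g a b c) ∧
      (φ ∈ ResB ρ σ lam g a b' c' ↔ (Ψ.symm.trans φ).trans Ψ ∈ ResB ρ σ lam g a b c) :=
  trip_Res'B ht hΨ

end Vale.Agent.P011.E6X

end part0

section part1

open Matrix

namespace Vale.Agent.P011.E6O.H68

open Vale.Agent.P011.MPQ Vale.Agent.P011.D4 Vale.Agent.P011.D4.Oct Vale.Agent.P011.E6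
open Vale.Agent.P011.E6.H64 Vale.Agent.P011.E6.Alb
open Vale.Agent.P011.E6I (MQ toMQ)
open Vale.Agent.P011S (UH SU redNorm IsAnisotropicForm)

section dict

variable {k E : Type} [Field k] [Field E] [Algebra k E] {ρ σ : E ≃ₐ[k] E} {lam : Eˣ}
  {g : Fin 3 → Eˣ} {a b : kˣ}

variable {al : E} (h2 : (2 : E) ≠ 0) (hα : al * al = up E a)

end dict

section main

variable {k E : Type} [Field k] [Field E] [Algebra k E] {ρ σ : E ≃ₐ[k] E} {lam : Eˣ}
  {g : Fin 3 → Eˣ} {a b c : kˣ} {al : E} (h2 : (2 : E) ≠ 0)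

/-- The special unitary group of rank two belongs to the finite residual. -/
theorem su_resB (hα : al * al = up E a) (ha : ρ al = al) (hσa : σ al = -al)
    {K : Type} [Field K] [StarRing K] [Algebra K E] (S : Dat K E)
    (hρ : ∀ x, S.ρ x = ρ x) (hs : ∀ x, S.s x = σ x) (hl : algebraMap K E S.lam = lam)
    (hG : S.G = g) {β : K} (hβ : algebraMap K E β = up E b)
    (htop : ∀ N : Subgroup (SU S.f (Hf S β)), Bg N → N = ⊤)
    (hmem : ∀ m : (MQ E a b)ˣ, InD ρ lam (m : MQ E a b) → IsUn σ g 1 (m : MQ E a b) →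
      nu (m : MQ E a b) = 1 → (actL h2 m 1 : AlbL E a b c ≃ₗ[E] _) ∈ GO ρ σ lam g a b c)
    {m : (MQ E a b)ˣ} (hm : InD ρ lam (m : MQ E a b)) (hu : IsUn σ g 1 (m : MQ E a b))
    (hn : nu (m : MQ E a b) = 1) {φ : AlbL E a b c ≃ₗ[E] AlbL E a b c}
    (hφ : ∀ x, φ x = Alb.act m 1 x) : φ ∈ ResB ρ σ lam g a b c := by
  subst hG
  have hbs : S.s (up E b : E) = up E b := by
    rw [hs]; exact σ.commutes _
  have hα' : S.s al = -al := by rw [hs, hσa]
  let T : (Matrix (Fin 2) (Fin 2) S.D)ˣ →* (MQ E a b)ˣ :=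
    Units.map (th S (spq (b := up E b) h2 hα) : _ →* _)
  have hT : ∀ x, ((T x : (MQ E a b)ˣ) : MQ E a b) = th S (spq (b := up E b) h2 hα) x :=
    fun _ => rfl
  have h1 : ∀ x ∈ SU S.f (Hf S β), InD ρ lam (T x : MQ E a b) ∧
      IsUn σ S.G 1 (T x : MQ E a b) ∧ nu (T x : MQ E a b) = 1 := by
    rintro x hx0
    obtain ⟨hx1, hx2⟩ := (mem_su S.f (Hf S β) x).1 hx0
    refine ⟨?_, ?_, ?_⟩
    · rw [hT]; exact thD_mem h2 hα S hρ hl ha _
    · rw [isUn_iff hs, hT, mdag_mul_iff S h2 hα hα' hβ hbs]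
      exact hx1
    · rw [hT, nu_th S _ h2 (det_spq h2 hα)]
      exact hx2
  let Φ : SU S.f (Hf S β) →* GO ρ σ lam S.G a b c :=
    { toFun := fun x => ⟨actL h2 (T x.1) 1, hmem _ (h1 x.1 x.2).1 (h1 x.1 x.2).2.1
        (h1 x.1 x.2).2.2⟩
      map_one' := by
        apply Subtype.ext
        apply LinearEquiv.ext
        intro x
        change act (T 1) 1 x = x
        rw [map_one]
        exact act_one_one h2 x
      map_mul' := fun x y => by
        apply Subtype.ext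
        apply LinearEquiv.ext
        intro z
        change act (T (x.1 * y.1)) 1 z = act (T x.1) 1 (act (T y.1) 1 z)
        rw [map_mul, act_act h2, mul_one] }
  obtain ⟨x, hx⟩ := exists_thD h2 hα S hρ hl ha hm
  have hinj := th_injective S (spq (b := up E b) h2 hα)
  obtain ⟨y, hy⟩ : ∃ y, th S (spq (b := up E b) h2 hα) y =
      ((m⁻¹ : (MQ E a b)ˣ) : MQ E a b) := by
    have h3 := (mdag_mul_iff S h2 hα hα' hβ hbs x).2
    have h4 : mdag S.s S.G (m : MQ E a b) * (m : MQ E a b) = 1 := (isUn_iff hs _).1 hu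
    have h5 : mdag S.s S.G (m : MQ E a b) = ((m⁻¹ : (MQ E a b)ˣ) : MQ E a b) :=
      Units.eq_inv_of_mul_eq_one_right h4
    refine ⟨Hi S β * xᴴ * Hf S β, ?_⟩
    rw [← mdag_th S h2 hα hα' hβ hbs, hx, h5]
  let x' : (Matrix (Fin 2) (Fin 2) S.D)ˣ :=
    ⟨x, y, hinj (by rw [map_mul, hx, hy, map_one]; exact Units.mul_inv m),
      hinj (by rw [map_mul, hx, hy, map_one]; exact Units.inv_mul m)⟩
  have hTx : T x' = m := Units.ext hx
  have hxS : x' ∈ SU S.f (Hf S β) := by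
    rw [mem_su]
    refine ⟨?_, ?_⟩
    · change xᴴ * Hf S β * x = Hf S β
      rw [← mdag_mul_iff S h2 hα hα' hβ hbs, hx]
      exact (isUn_iff hs _).1 hu
    · change redNorm S.f (Fin 2) x = 1
      rw [← nu_th S (spq (b := up E b) h2 hα) h2 (det_spq h2 hα), hx, hn]
  refine ⟨Φ ⟨x', hxS⟩, ?_, ?_⟩
  · rw [SetLike.mem_coe, Subgroup.mem_sInf]
    intro N hN
    have h6 : Bg (N.comap Φ) := Bg.comap hN Φ
    have h7 := htop _ h6
    have h8 : (⟨x', hxS⟩ : SU S.f (Hf S β)) ∈ N.comap Φ := by rw [h7]; exact Subgroup.mem_top _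
    exact h8
  · apply LinearEquiv.ext
    intro z
    change act (T x') 1 z = φ z
    rw [hTx, hφ]

end main

end Vale.Agent.P011.E6O.H68

end part1

section part2

open Matrix

namespace Vale.Agent.P011.E6O.H68

open Vale.Agent.P011S (UH SU redNorm IsAnisotropicForm)

variable {K E : Type} [Field K] [StarRing K] [Field E] [Algebra K E] (S : Dat K E)

theorem su_topB [NumberField K] (hK : ∃ t : K, star t ≠ t) {β : K} (hβs : star β = β)
    (h0 : β ≠ 0)
    (han : ∀ x y : S.D, x * star x + y * algebraMap K S.D (-β) * star y = 0 → x = 0 ∧ y = 0) :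
    ∀ N : Subgroup (SU S.f (Hf S β)), Bg N → N = ⊤ :=
  fun N hN => Vale.Agent.P011N.E1.bigTop_SU (K := K) (D := S.D) (F := E) hN.2.1 hK (by norm_num)
    S.finrank_D S.f (le_refl 2) (Hf S β) (aniso_Hf S hβs h0 han) N hN.1

end Vale.Agent.P011.E6O.H68

end part2

section part3

open NumberField Matrix

namespace Vale.Agent.P011.E6X

open Vale.Agent.P011.E6O

open Vale.Agent.P011.MPQ Vale.Agent.P011.D4 Vale.Agent.P011.D4.Oct Vale.Agent.P011.E6
open Vale.Agent.P011.E6I (MQ toMQ)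

variable {k E : Type} [Field k] [NumberField k] [Field E] [NumberField E] [Algebra k E]
  {ρ σ : E ≃ₐ[k] E} {lam : Eˣ} {g : Fin 3 → Eˣ} {al s : E} {a b c : kˣ}

/-- The special unitary group of rank two belongs to the finite residual. -/
theorem su_ResB (H : Hyp ρ σ lam g al s a b c) {m : (MQ E a b)ˣ} (hm : InD ρ lam (m : MQ E a b))
    (hu : IsUn σ g 1 (m : MQ E a b)) (hn : nu (m : MQ E a b) = 1)
    {φ : AlbL E a b c ≃ₗ[E] AlbL E a b c} (hφ : ∀ x, φ x = Alb.act m 1 x) :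
    φ ∈ ResB ρ σ lam g a b c := by
  obtain ⟨K, _, _, _, _, S, h1, h2, h3, h4, -, h5, h6, h7, h8⟩ := H.exists_dat
  have hα : al * al = up E a := by rw [← pow_two, H.al2]; rfl
  obtain ⟨β, hβ⟩ := h5 (algebraMap k E b) (ρ.commutes _)
  have hβs : star β = β := by
    apply (algebraMap K E).injective
    rw [h7, hβ, AlgEquiv.commutes]
  have hβ0 : β ≠ 0 := fun h => b.ne_zero ((map_eq_zero (algebraMap k E)).1
    (by rw [← hβ, h, map_zero]))
  have hnn : ∀ x : K, x * star x ≠ β := by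
    intro x hx
    apply H.not_norm (h6 x)
    rw [← h7, ← map_mul, hx, hβ]
  have han : ∀ x y : S.D, x * star x + y * algebraMap K S.D (-β) * star y = 0 →
      x = 0 ∧ y = 0 := by
    intro x y h
    apply aniso_b S hβs hnn
    rw [← h, map_neg, mul_neg, neg_mul, ← sub_eq_add_neg, Algebra.smul_def,
      ← Algebra.commutes β y, mul_assoc]
  refine H68.su_resB two_ne_zero hα H.ρal H.σal S h1 h2 h3 h4 hβ
    (H68.su_topB S h8 hβs hβ0 fun x y h => han x y h) (fun m hm hu hn => ?_)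
    hm hu hn hφ
  obtain ⟨ψ, hψ, hψ'⟩ := exists_act H hm hu hn
  have e : (H64.actL two_ne_zero m 1 : AlbL E a b c ≃ₗ[E] _) = ψ := by
    apply LinearEquiv.ext
    intro x
    rw [H64.actL_apply, Units.val_one, hψ']
  rw [e]
  exact hψ

end Vale.Agent.P011.E6X

end part3

section part4

open NumberField Matrix

namespace Vale.Agent.P011.E6X

open Vale.Agent.P011.MPQ Vale.Agent.P011.D4 Vale.Agent.P011.D4.Oct Vale.Agent.P011.E6
open Vale.Agent.P011.E6O Vale.Agent.P011.E6O.H370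
open Vale.Agent.P011.E6I (MQ toMQ)

variable {k E : Type} [Field k] [NumberField k] [Field E] [NumberField E] [Algebra k E]
  {ρ σ : E ≃ₐ[k] E} {lam : Eˣ} {g : Fin 3 → Eˣ} {al s : E} {a b c : kˣ}
  (H : Hyp ρ σ lam g al s a b c)

include H

/-- The common step. -/
theorem H370.coreB {f : k} (hf : f ≠ 0)
    (hs : ∀ w, SC σ w → vk w (b : k) < 0 → 0 < vk w (-(c * f)))
    {A : Submodule E (AlbL E a b c)} (hA : IsPt ρ lam A) (hI : A ≤ Iln c (ep al))
    (hT : Ty σ g f A) :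
    ∃ (n : AlbL E a b c ≃ₗ[E] AlbL E a b c) (M : (MQ E a b)ˣ) (κ : Qt a b),
      n ∈ ResB ρ σ lam g a b c ∧ (∀ x, n x = Alb.act M 1 x) ∧
      (∀ x, n.symm x = Alb.act M⁻¹ 1 x) ∧ κ ≠ 0 ∧ nrd κ ≠ 0 ∧
      A.map (n : AlbL E a b c →ₗ[E] AlbL E a b c) =
        Apt (⟨0, ep al * qup E κ⟩ : OctL E a b c) := by
  obtain ⟨K, _, _, _, _, S, β, hS⟩ := H.exists_isDat
  obtain ⟨Z1, Z2, hZ1, hZ2, hne, hAx⟩ := exists_Z (c := c) (b := b) two_ne_zero H.al2 H.ρal
    (⟨H.ρ3, H.ρlam, lam.ne_zero, H.hlam⟩ : Cyc (ρ : E ≃+* E) (lam : E)) hA hI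
  have eu : E6I.u0 E S.lam = um lam := by
    have e : (up E S.lam : Eˣ) = lam := Units.ext hS.eqlam
    rw [E6I.u0, um, e]
  have hin : ∀ {Z : Matrix (Fin 3) (Fin 3) E}, InD0 ρ lam Z → E6I.InD0 S.ρ S.lam Z := by
    intro Z hZ
    rw [E6I.InD0, eu]
    rw [InD0] at hZ
    rw [hZ]
    congr 1
    ext i j
    rw [Matrix.map_apply, Matrix.map_apply, hS.eqρ]
  obtain ⟨z₁, hz₁⟩ : ∃ z : S.D, S.f z = Z1 := ⟨S.el (hin hZ1), S.f_el _⟩
  obtain ⟨z₂, hz₂⟩ : ∃ z : S.D, S.f z = Z2 := ⟨S.el (hin hZ2), S.f_el _⟩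
  obtain ⟨m, δ, κ₁, κ₂, hδ, hκ, hm, hnrm, e1, e2⟩ := hS.T z₁ z₂ (by
    rcases hne with h | h
    · exact Or.inl fun h0 => h (by rw [← hz₁, h0, map_zero])
    · exact Or.inr fun h0 => h (by rw [← hz₂, h0, map_zero])) (by
    intro w hw
    obtain ⟨ε, Q, h1, h2, h3, h4⟩ := H370.sgn_of (c := c) (b := b) two_ne_zero H.al2 H.σal
      (w := w) hw hf (hs w hw) (Z1 := Z1) (Z2 := Z2) (fun x hx => (hAx x).mp hx) (hT w hw)
    refine ⟨ε, Q, h1, h2, h3, ?_⟩
    rw [h4, ← hz₁, ← hz₂]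
    ext i j
    rw [Matrix.mul_diagonal, Matrix.map_apply, Matrix.map_apply,
      H370.f_form S hS.eqs hS.eqG hS.eqβ, map_mul, mul_assoc,
      mul_inv_cancel₀ ((map_ne_zero w).mpr (g j).ne_zero), mul_one])
  exact H370.move_of two_ne_zero H.al2 H.ρal H.σal H.hdiv (fun x hx => H.exists_kal hx) S
    hS.eqρ hS.eqs hS.eqlam hS.eqG hS.fix' hS.eqβ hS.β0
    (fun hm hu hn _ hφ => su_ResB H hm hu hn hφ) hδ hκ hm hnrm e1 e2
    (fun x => by rw [hAx, hz₁, hz₂])

/-- Every point with standard type on the line `I` is moved to a standard point by an element of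
the finite residual. -/
theorem TB {f : k} (hf : f ≠ 0)
    (hs : ∀ w, SC σ w → vk w (b : k) < 0 → 0 < vk w (-(c * f)))
    {A : Submodule E (AlbL E a b c)} (hA : IsPt ρ lam A) (hI : A ≤ Iln c (ep al))
    (hT : Ty σ g f A) :
    ∃ n ∈ ResB ρ σ lam g a b c, ∃ w : Oct a b c, Perp w ∧
      A.map (n : AlbL E a b c →ₗ[E] AlbL E a b c) = Pw al w := by
  obtain ⟨n, M, κ, hn, -, -, hκ, hκn, h⟩ := H370.coreB H hf hs hA hI hT
  obtain ⟨u, hu⟩ := H64.isUnit_of_nrd hκn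
  have hcj : conjE E c u ∈ ResB ρ σ lam g a b c := aut_ResB H (conjC c u) (conjE_aup u)
  refine ⟨conjE E c u * n, Subgroup.mul_mem _ hcj hn, ⟨0, κ⟩, perp_snd hκ, ?_⟩
  have h6 := conj_Pw (c := c) al u
  rw [hu] at h6
  rw [← h6, ← h, ← Submodule.map_comp]
  rfl

/-- Every point with standard type on the opposite line is moved to a standard point, together
with its opposite point, by an element of the finite residual. -/
theorem TmB {f : k} (hf : f ≠ 0)
    (hs : ∀ w, SC σ w → vk w (b : k) < 0 → 0 < vk w (-(c * f)))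
    {U : Submodule E (AlbL E a b c)} (hU : IsPt ρ lam U) (hI : U ≤ Iln c (E6O.em al))
    (hT : Ty σ g f U) :
    ∃ n ∈ ResB ρ σ lam g a b c, ∃ w : Oct a b c, Perp w ∧
      U.map (n : AlbL E a b c →ₗ[E] AlbL E a b c) = Pm al w ∧
      (opp σ g al U).map (n : AlbL E a b c →ₗ[E] AlbL E a b c) = Pw al w := by
  have hai : ai E a b c ∈ ResB ρ σ lam g a b c := aut_ResB H (autI a b c) ai_aup
  have hher : ∀ n ∈ ResB ρ σ lam g a b c, ∀ x y, her σ g (n x) (n y) = her σ g x y := by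
    rintro _ ⟨n, -, rfl⟩ x y
    exact n.2.2.2 x y
  obtain ⟨m, M, κ, hm, hm1, hm2, hκ, hκn, h⟩ := H370.coreB H hf hs (ai_isPt hU) (ai_Iln hI) (by
    intro w hw
    obtain ⟨x, hx, Q, hQ, h⟩ := hT w hw
    refine ⟨fun i => ai E a b c (x i), fun i => ⟨x i, hx i, rfl⟩, Q, hQ, ?_⟩
    rw [← h]
    congr 2
    ext i j
    rw [gram, gram, Matrix.of_apply, Matrix.of_apply, hher _ hai])
  obtain ⟨n, hnm⟩ : ∃ n, n = ai E a b c * m * ai E a b c := ⟨_, rfl⟩
  have hn : n ∈ ResB ρ σ lam g a b c := by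
    rw [hnm]
    exact Subgroup.mul_mem _ (Subgroup.mul_mem _ hai hm) hai
  have hUn : U.map (n : AlbL E a b c →ₗ[E] AlbL E a b c) =
      Apt (⟨0, E6O.em al * qup E (qi κ)⟩ : OctL E a b c) := by
    have h1 := ai_Apt (a := a) (b := b) (c := c) (⟨0, ep al * qup E κ⟩ : OctL E a b c)
    have h2 : oi (up E a) (up E b) (up E c) (⟨0, ep al * qup E κ⟩ : OctL E a b c) =
        ⟨0, E6O.em al * qup E (qi κ)⟩ := by
      rw [oi_apply]
      apply Oct.ext
      · exact qi_zero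
      · change qi (ep al * qup E κ) = _
        rw [qi_mul, qi_ep]
        congr 1
        simp only [qi, qup, map_neg]
    rw [h2, ← h] at h1
    rw [← h1, ← Submodule.map_comp, ← Submodule.map_comp, hnm]
    rfl
  have hκn' : nrd (qi κ) ≠ 0 := by
    have e : nrd (qi κ) = nrd κ := by
      simp only [nrd, qi]
      ring
    rw [e]
    exact hκn
  have hκ' : qi κ ≠ 0 := by
    intro h0
    apply hκ
    rw [← qi_qi κ, h0, qi_zero]
  have hopp := H370.opp_map_ai (σ := σ) (g := g) hm1 hm2 hnm (hher n hn) hI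
  rw [hUn, H370.opp_std two_ne_zero H.al2 H.σal hκn'] at hopp
  obtain ⟨u, hu⟩ := H64.isUnit_of_nrd hκn'
  have hcj : conjE E c u ∈ ResB ρ σ lam g a b c := aut_ResB H (conjC c u) (conjE_aup u)
  refine ⟨conjE E c u * n, Subgroup.mul_mem _ hcj hn, ⟨0, qi κ⟩, perp_snd hκ', ?_, ?_⟩
  · have h6 := conj_Pm (c := c) al u
    rw [hu] at h6
    rw [← h6, ← hUn, ← Submodule.map_comp]
    rfl
  · have h6 := conj_Pw (c := c) al u
    rw [hu] at h6
    rw [← h6, ← hopp, ← Submodule.map_comp]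
    rfl

end Vale.Agent.P011.E6X

end part4

section part5

open NumberField Matrix

namespace Vale.Agent.P011.E6X

open Vale.Agent.P011.E6O

open Vale.Agent.P011.MPQ Vale.Agent.P011.D4 Vale.Agent.P011.D4.Oct Vale.Agent.P011.E6
open Vale.Agent.P011.E6.Alb

section basic

variable {k E : Type} [Field k] [Field E] [Algebra k E] {a b c : kˣ}

end basic

section main

variable {k E : Type} [Field k] [NumberField k] [Field E] [NumberField E] [Algebra k E]
  {ρ σ : E ≃ₐ[k] E} {lam : Eˣ} {g : Fin 3 → Eˣ} {al s : E} {a b c : kˣ}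
  (H : Hyp ρ σ lam g al s a b c)

include H

/-- The classes: `n(w)` and `n(l)` differ by a norm, and an automorphism carries `w` to `l`. -/
theorem end1B {h : AlbL E a b c ≃ₗ[E] AlbL E a b c} (hh : h ∈ GO ρ σ lam g a b c)
    {w : Oct a b c} (hw : Perp w)
    (hA : (Pw al (gl : Oct a b c)).map (h : AlbL E a b c →ₗ[E] AlbL E a b c) = Pw al w) :
    ∃ n ∈ ResB ρ σ lam g a b c,
      (Pw al (gl : Oct a b c)).map ((n * h : AlbL E a b c ≃ₗ[E] AlbL E a b c) :
        AlbL E a b c →ₗ[E] AlbL E a b c) = Pw al gl := by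
  obtain ⟨d, hρd, hd⟩ := exists_det H hh hw.ne hA
  have hnw : norm w ≠ 0 := fun h => hw.ne (H.hdiv _ h)
  have hnl : norm (gl : Oct a b c) = -(c : k) := by
    simp [Oct.norm, nrd, gl]
  have hnl0 : norm (gl : Oct a b c) ≠ 0 := by
    rw [hnl]
    exact neg_ne_zero.mpr c.ne_zero
  have hnw' : algebraMap k E (norm w) ≠ 0 := (map_ne_zero _).mpr hnw
  have hnl' : algebraMap k E (norm (gl : Oct a b c)) ≠ 0 := (map_ne_zero _).mpr hnl0
  -- the norm
  obtain ⟨u0, u1, hu⟩ := H.exists_kal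
    (x := algebraMap k E (norm w) / algebraMap k E (norm (gl : Oct a b c)) * d)
    (by rw [map_mul, map_div₀, AlgEquiv.commutes, AlgEquiv.commutes, hρd])
  have ht : (algebraMap k E u0 + al * algebraMap k E u1) *
      (algebraMap k E u0 - al * algebraMap k E u1) * algebraMap k E (norm w) =
        algebraMap k E (norm (gl : Oct a b c)) := by
    have h1 : algebraMap k E u0 - al * algebraMap k E u1 =
        σ (algebraMap k E u0 + al * algebraMap k E u1) := by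
      rw [map_add, map_mul, AlgEquiv.commutes, AlgEquiv.commutes, H.σal]
      ring
    rw [h1, ← hu, map_mul, map_div₀, AlgEquiv.commutes, AlgEquiv.commutes]
    field_simp
    linear_combination -hd
  have ht0 : algebraMap k E u0 + al * algebraMap k E u1 ≠ 0 := by
    intro h0
    rw [h0, zero_mul, zero_mul] at ht
    exact hnl' ht.symm
  have hk : (u0 ^ 2 - a * u1 ^ 2) * norm w = norm (gl : Oct a b c) := by
    apply (algebraMap k E).injective
    rw [map_mul, map_sub, map_mul, map_pow, map_pow, ← H.al2, ← ht]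
    ring
  -- the new octonion
  obtain ⟨w', hw'⟩ : ∃ w' : Oct a b c, w' = (⟨⟨u0, u1, 0, 0⟩, 0⟩ : Oct a b c) * w := ⟨_, rfl⟩
  have hP : Pw al w' = Pw al w := by
    rw [hw', Pw, ep_mul H.al_ne H.al2, Apt_smul ht0, Pw]
  have hw1 : w.fst.re = 0 := by
    have h1 := congrArg (fun x : Oct a b c => x.fst.re) hw.tr
    simp at h1
    have h2 : (2 : k) * w.fst.re = 0 := by linear_combination h1
    exact (mul_eq_zero.mp h2).resolve_left two_ne_zero
  have hw2 : w.fst.imI = 0 := by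
    have h1 := hw.i
    simp [dot, gi] at h1
    exact h1
  have hn' : norm w' = norm (gl : Oct a b c) := by
    rw [hw', Oct.norm_mul, ← hk]
    congr 1
    simp [Oct.norm, nrd]
  have hs' : star w' = -w' := by
    rw [hw']
    ext <;> simp [hw1, hw2] <;> ring
  have hi' : dot gi w' = 0 := by
    rw [hw']
    simp [dot, gi, hw1, hw2]
  obtain ⟨v, hv0, hv⟩ := exists_perp
    (![1, gi, gl - w', gi * (gl - w'), 0, 0, 0] : Fin 7 → Oct a b c)
  have hv1 : dot v 1 = 0 := hv 0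
  have hv2 : dot v gi = 0 := hv 1
  have hv3 : dot v (gl - w') = 0 := hv 2
  have hv4 : dot v (gi * (gl - w')) = 0 := hv 3
  have hstd := trip_std (a := a) (b := b) (c := c)
  have hi0 : (gi : Oct a b c) ≠ 0 := by
    intro h
    have := congrArg (fun x : Oct a b c => x.fst.imI) h
    simp [gi] at this
  obtain ⟨f, hfi, -, hfw⟩ := exists_move H.hdiv hstd.si hi0 (star_iff_dot.2 hv1) hv0
    (by rw [dot_comm, hv2]) hs' hstd.sl hn'.symm
    (by rw [dot_sub_right, hstd.il, hi', sub_zero]) hv3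
    (by rw [dot_mul_left, hstd.si, neg_mul, dot_neg_right, hv4, neg_zero])
  refine ⟨(autO ρ σ lam g a b c f).1, ⟨_, autO_memB H.hdiv f, rfl⟩, ?_⟩
  have h1 : (Pw al (gl : Oct a b c)).map (((autO ρ σ lam g a b c f).1 * h :
      AlbL E a b c ≃ₗ[E] AlbL E a b c) : AlbL E a b c →ₗ[E] AlbL E a b c) =
      ((Pw al (gl : Oct a b c)).map (h : AlbL E a b c →ₗ[E] AlbL E a b c)).map
        ((autO ρ σ lam g a b c f).1 : AlbL E a b c →ₗ[E] AlbL E a b c) := by
    rw [← Submodule.map_comp]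
    rfl
  rw [h1, hA, ← hP]
  apply le_antisymm
  · rintro _ ⟨x, hx, rfl⟩
    obtain ⟨r, rfl⟩ := mem_Apt_pt.mp hx
    refine mem_Apt_pt.mpr ⟨r, ?_⟩
    rw [← hfw]
    exact autO_pt hfi w' r
  · intro x hx
    obtain ⟨r, rfl⟩ := mem_Apt_pt.mp hx
    refine ⟨_, pt_mem _ r, ?_⟩
    rw [← hfw]
    exact autO_pt hfi w' r

end main

end Vale.Agent.P011.E6X

end part5

section part6

open Matrix

namespace Vale.Agent.P011.E6X

open Vale.Agent.P011.E6O Vale.Agent.P011.E6O.H408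

open Vale.Agent.P011.MPQ Vale.Agent.P011.D4 Vale.Agent.P011.D4.Oct Vale.Agent.P011.E6
open Vale.Agent.P011.E6.Alb
open Vale.Agent.P011.E6I (MQ toMQ)
open H408

namespace H408

variable {k E : Type} [Field k] [Field E] [Algebra k E]
  {ρ σ : E ≃ₐ[k] E} {lam : Eˣ} {g : Fin 3 → Eˣ} {a b c : kˣ} {al : E}

end H408

open Vale.Agent.P011.E6X.H408

variable {k E : Type} [Field k] [NumberField k] [Field E] [NumberField E] [Algebra k E]
  {ρ σ : E ≃ₐ[k] E} {lam : Eˣ} {g : Fin 3 → Eˣ} {al s : E} {a b c : kˣ}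

/-- The stabiliser of the standard point. -/
theorem end2B (H : Hyp ρ σ lam g al s a b c) {h : AlbL E a b c ≃ₗ[E] AlbL E a b c}
    (hh : h ∈ GO ρ σ lam g a b c)
    (hA : (Pw al (gl : Oct a b c)).map (h : AlbL E a b c →ₗ[E] AlbL E a b c) = Pw al gl) :
    h ∈ ResB ρ σ lam g a b c := by
  have hal := H.al2
  have hc : -algebraMap k E c ≠ 0 := by
    rw [neg_ne_zero, map_ne_zero]
    exact c.ne_zero
  have h1 : ∀ i, ∃ t, h (E6O.H408.pt (xp al) (Pi.single i 1)) = E6O.H408.pt (xp al) t := by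
    intro i
    have h0 : h (E6O.H408.pt (xp al) (Pi.single i 1)) ∈ Pw al (gl : Oct a b c) := by
      rw [← hA]
      exact Submodule.mem_map_of_mem (mem_Pw.2 ⟨_, rfl⟩)
    exact mem_Pw.1 h0
  obtain ⟨δ, hδ⟩ := exists_mat h1
  have hδD := inD0_of H.ρ3 H.ρlam hh.2.1 (xp_ne hal) (omap_xp' H.ρal) (omap_xp' H.ρal) hδ
  have hbp : bil (xp al : OctL E a b c) (omap σ (xp al)) = -algebraMap k E c := by
    rw [omap_xp H.σal, bil_xp_xm hal]
  have hbm : bil (E6O.H408.xm al : OctL E a b c) (omap σ (E6O.H408.xm al)) = -algebraMap k E c := by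
    rw [omap_xm H.σal, bil_comm, bil_xp_xm hal]
  have hδu := unitary_iff (smul_right_injective _ hc (unitary_of hh.2.2 hbp hbp hδ))
  obtain ⟨z', m, hz', hzu', hdet, hm, hmD, hmU, hmn⟩ := matched H hδD hδu
  obtain ⟨φ1, hφ1G, hφ1⟩ := exists_act H hmD hmU hmn
  have hφ1R : φ1 ∈ ResB ρ σ lam g a b c := su_ResB H hmD hmU hmn hφ1
  have hδ0 : IsUnit δ.det := IsUnit.of_mul_eq_one _ hdet
  have hz0 : IsUnit z'.det := IsUnit.of_mul_eq_one _ (by rw [mul_comm]; exact hdet)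
  have hminv : ((m⁻¹ : (MQ E a b)ˣ) : MQ E a b) = mq al δ⁻¹ z'⁻¹ := by
    apply Units.inv_eq_of_mul_eq_one_right
    rw [hm, mq_eq hal, mq_mul hal, Matrix.mul_nonsing_inv _ hδ0, Matrix.mul_nonsing_inv _ hz0,
      mq_one]
  have h2 : ∀ r, (φ1 * h) (E6O.H408.pt (xp al) r) = E6O.H408.pt (xp al) r := by
    intro r
    rw [LinearEquiv.mul_apply, hδ, hφ1, (act_pt hal hminv _).1, Matrix.vecMul_vecMul,
      Matrix.mul_nonsing_inv _ hδ0, Matrix.vecMul_one]
  have hG2 : φ1 * h ∈ GO ρ σ lam g a b c := mul_mem hφ1G hh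
  obtain ⟨D, hD⟩ := exists_D hal H.σal H.σ2 hG2.1 hG2.2.2 h2
  have hDD := inD0_of H.ρ3 H.ρlam hG2.2.1 (xm_ne hal) (omap_xm' H.ρal) (omap_xm' H.ρal) hD
  have hDu := unitary_iff (smul_right_injective _ hc (unitary_of hG2.2.2 hbm hbm hD))
  have hDd : D.det = 1 := by
    have e := map_Zt hal H.σal H.σ2 hG2.1 hG2.2.2 h2 hD 1
    have e2 := hG2.1 (Zt al 1)
    rw [e, cub_Zt hal, cub_Zt hal, Matrix.mul_one, Matrix.det_transpose, det_Dw,
      Matrix.det_one] at e2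
    apply σ.injective
    rw [e2, map_one]
  obtain ⟨m2, hm2, hm2i, hm2D, hm2U, hm2n⟩ := exists_m (a := a) (b := b) (g := g) hal H.ρal H.σal
    inD0_one hDD un_one hDu (by rw [hDd, Matrix.det_one, one_mul])
  obtain ⟨φ2, hφ2G, hφ2⟩ := exists_act H hm2D hm2U hm2n
  have hφ2R : φ2 ∈ ResB ρ σ lam g a b c := su_ResB H hm2D hm2U hm2n hφ2
  have h3 : ∀ r, (φ2 * (φ1 * h)) (E6O.H408.pt (xp al) r) = E6O.H408.pt (xp al) r := by
    intro r
    rw [LinearEquiv.mul_apply, h2, hφ2, (act_pt hal hm2i _).1, inv_one, Matrix.vecMul_one]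
  have h4 : ∀ r, (φ2 * (φ1 * h)) (E6O.H408.pt (E6O.H408.xm al) r) = E6O.H408.pt (E6O.H408.xm al) r := by
    intro r
    have hD0 : IsUnit D.det := by rw [hDd]; exact isUnit_one
    rw [LinearEquiv.mul_apply, hD, hφ2, (act_pt hal hm2i _).2, Matrix.vecMul_vecMul,
      Matrix.mul_nonsing_inv _ hD0, Matrix.vecMul_one]
  obtain ⟨f, hf⟩ := end3 H (h := φ2 * (φ1 * h)) (mul_mem hφ2G hG2)
    (fun x hx => by
      obtain ⟨r, rfl⟩ := mem_Pw.1 hx
      exact h3 r)
    (fun x hx => by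
      obtain ⟨r, rfl⟩ := mem_Pm.1 hx
      exact h4 r)
  have h5 : φ2 * (φ1 * h) ∈ ResB ρ σ lam g a b c := aut_ResB H f hf
  have h6 : h = φ1⁻¹ * (φ2⁻¹ * (φ2 * (φ1 * h))) := by group
  rw [h6]
  exact Subgroup.mul_mem _ (Subgroup.inv_mem _ hφ1R)
    (Subgroup.mul_mem _ (Subgroup.inv_mem _ hφ2R) h5)

end Vale.Agent.P011.E6X

end part6

section part7

open NumberField

namespace Vale.Agent.P011.E6X

open Vale.Agent.P011.E6O Vale.Agent.P011.MPQ Vale.Agent.P011.D4 Vale.Agent.P011.D4.Oct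
  Vale.Agent.P011.E6
open Vale.Agent.P011.E6H (nm)

variable {k E : Type} [Field k] [NumberField k] [Field E] [NumberField E] [Algebra k E]
  {ρ σ : E ≃ₐ[k] E} {lam : Eˣ} {g : Fin 3 → Eˣ} {al s : E} {a b c : kˣ}

omit [NumberField k] [NumberField E] in
theorem res_le_GOB : ResB ρ σ lam g a b c ≤ GO ρ σ lam g a b c := by
  rintro _ ⟨x, -, rfl⟩
  exact x.2

/-- An element which is moved to the standard point belongs to the finite residual. -/
theorem mem_res_of_slideB (H : Hyp ρ σ lam g al s a b c) {h : AlbL E a b c ≃ₗ[E] AlbL E a b c}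
    (hh : h ∈ GO ρ σ lam g a b c)
    (hs : ∃ n ∈ ResB ρ σ lam g a b c, ∃ w : Oct a b c, Perp w ∧
      (Pw al (gl : Oct a b c)).map ((n * h : AlbL E a b c ≃ₗ[E] AlbL E a b c) :
        AlbL E a b c →ₗ[E] AlbL E a b c) = Pw al w) : h ∈ ResB ρ σ lam g a b c := by
  obtain ⟨n, hn, w, hw, h1⟩ := hs
  have h2 : n * h ∈ GO ρ σ lam g a b c := mul_mem (res_le_GOB hn) hh
  obtain ⟨n', hn', h3⟩ := end1B H h2 hw h1
  have h4 : n' * (n * h) ∈ GO ρ σ lam g a b c := mul_mem (res_le_GOB hn') h2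
  have h5 := end2B H h4 h3
  have h6 : h = n⁻¹ * (n'⁻¹ * (n' * (n * h))) := by group
  rw [h6]
  exact mul_mem (InvMemClass.inv_mem hn) (mul_mem (InvMemClass.inv_mem hn') h5)

omit [NumberField k] [NumberField E] in
theorem mem_of_mem_resB {N : Subgroup (GO ρ σ lam g a b c)} (hN : Bg N)
    {x : GO ρ σ lam g a b c} (hx : x.1 ∈ ResB ρ σ lam g a b c) : x ∈ N := by
  obtain ⟨y, hy, hyx⟩ := hx
  have h2 : y = x := Subtype.ext hyx
  rw [← h2]
  exact Subgroup.mem_sInf.mp hy N hN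

end Vale.Agent.P011.E6X

end part7
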